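import Vale.Agent.P281.H702.TS.HF
import Vale.Agent.P281.H834.TS.Kf

/-!
# P281, project T-HK (helper834): the closed 2-form of a Kähler metric, in every dimension
-/

open Set Filter Metric MeasureTheory Vale.Agent.P272.K
open scoped Topology ContDiff ComplexConjugate ComplexOrder

noncomputable section

namespace Vale.Agent.P281.H834.HK

open Vale.Agent.P281.H64.TK Vale.Agent.P281.H64.TK.TS Vale.Agent.P281.H834.TS
open Vale.Agent.P281.H702.TS (sm2 fd2 fd_dz Tr_eq Tr_fderiv)

variable {d : ℕ}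

/-- The coordinate `z_k`. -/
def zo (k : Fin d) : Cm d →L[ℝ] ℂ := ContinuousLinearMap.proj (R := ℝ) (φ := fun _ : Fin d => ℂ) k

@[simp] theorem zo_apply (k : Fin d) (u : Cm d) : zo k u = u k := rfl

/-- The coordinate `conj z_k`. -/
def zc (k : Fin d) : Cm d →L[ℝ] ℂ := Complex.conjCLE.toContinuousLinearMap.comp (zo k)

@[simp] theorem zc_apply (k : Fin d) (u : Cm d) : zc k u = conj (u k) := rfl

/-- The 2-form `(i/2) Σ w_{jk} dz_j ∧ conj dz_k` of the matrix `w`. -/
def kfd (w : Matrix (Fin d) (Fin d) ℂ) : L2 d := KFg zo zc w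

theorem kfd_apply (w : Matrix (Fin d) (Fin d) ℂ) (u v : Cm d) :
    kfd w u v = Complex.I / 2 * ∑ j, ∑ k, w j k * (u j * conj (v k) - v j * conj (u k)) := by
  refine (KFg_apply zo zc w u v).trans ?_
  refine congrArg _ (Finset.sum_congr rfl fun j _ => Finset.sum_congr rfl fun k _ => ?_)
  simp only [zo_apply, zc_apply]
  ring

theorem kfd_two (w : Matrix (Fin 2) (Fin 2) ℂ) : kfd w = kf2 w := by
  refine ContinuousLinearMap.ext fun u => ContinuousLinearMap.ext fun v => ?_
  rw [kfd_apply]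
  rfl

theorem kfd_alt (w : Matrix (Fin d) (Fin d) ℂ) (u v : Cm d) : kfd w u v = - kfd w v u := by
  rw [kfd_apply, kfd_apply, ← mul_neg, ← Finset.sum_neg_distrib]
  refine congrArg _ (Finset.sum_congr rfl fun a _ => ?_)
  rw [← Finset.sum_neg_distrib]
  exact Finset.sum_congr rfl fun b _ => by ring

/-- `kfd w` is real for Hermitian `w`. -/
theorem kfd_im {w : Matrix (Fin d) (Fin d) ℂ} (hw : w.IsHermitian) (u v : Cm d) :
    (kfd w u v).im = 0 := by
  rw [← Complex.conj_eq_iff_im, kfd_apply, map_mul, map_sum, map_div₀, Complex.conj_I,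
    map_ofNat (starRingEnd ℂ) 2]
  have h : ∑ j, conj (∑ k, w j k * (u j * conj (v k) - v j * conj (u k))) =
      - ∑ j, ∑ k, w j k * (u j * conj (v k) - v j * conj (u k)) := by
    rw [Finset.sum_comm, ← Finset.sum_neg_distrib]
    refine Finset.sum_congr rfl fun j _ => ?_
    rw [map_sum, ← Finset.sum_neg_distrib]
    refine Finset.sum_congr rfl fun k _ => ?_
    have h1 : conj (w j k) = w k j := hw.apply k j
    simp only [map_mul, map_sub, Complex.conj_conj, h1]
    ring
  rw [h]
  ring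

/-- `Σ w_{jk} u_j conj v_k`. -/
def Hd (w : Matrix (Fin d) (Fin d) ℂ) (u v : Cm d) : ℂ :=
  u ⬝ᵥ w.mulVec (fun b => conj (v b))

theorem kfd_eq (w : Matrix (Fin d) (Fin d) ℂ) (u v : Cm d) :
    kfd w u v = Complex.I / 2 * (Hd w u v - Hd w v u) := by
  rw [kfd_apply]
  simp only [Hd, dotProduct, Matrix.mulVec, ← Finset.sum_sub_distrib, Finset.mul_sum]
  refine Finset.sum_congr rfl fun a _ => Finset.sum_congr rfl fun b _ => ?_
  ring

theorem Hd_change {w J : Matrix (Fin d) (Fin d) ℂ} {u v u' v' : Cm d}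
    (hu : ∀ a, u' a = ∑ b, J a b * u b) (hv : ∀ a, v' a = ∑ b, J a b * v b) :
    Hd (J.transpose * w * J.map conj) u v = Hd w u' v' := by
  have h1 : u' = J.mulVec u := funext hu
  have h2 : (fun a => conj (v' a)) = (J.map conj).mulVec (fun b => conj (v b)) := by
    funext a
    simp only [hv a, map_sum, map_mul, Matrix.mulVec, dotProduct, Matrix.map_apply]
  unfold Hd
  rw [h1, h2, ← Matrix.mulVec_mulVec, ← Matrix.mulVec_mulVec, Matrix.dotProduct_mulVec,
    Matrix.vecMul_transpose]

/-- Pull-back. -/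
theorem kfd_change {w J : Matrix (Fin d) (Fin d) ℂ} {u v u' v' : Cm d}
    (hu : ∀ a, u' a = ∑ b, J a b * u b) (hv : ∀ a, v' a = ∑ b, J a b * v b) :
    kfd (J.transpose * w * J.map conj) u v = kfd w u' v' := by
  rw [kfd_eq, kfd_eq, Hd_change hu hv, Hd_change hv hu]

section
variable {E Γ : Type} [TopologicalSpace E] [Group Γ] [MulAction Γ E] {S : Sheets d E Γ}
  {w : Fin S.N → Cm d → Matrix (Fin d) (Fin d) ℂ}

theorem kfd_closed {w : Cm d → Matrix (Fin d) (Fin d) ℂ} {z : Cm d}
    (hw : ∀ a b, ContDiffAt ℝ ∞ (fun z => w z a b) z)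
    (hcl : ∀ j k l, dz l (fun z => w z j k) z = dz j (fun z => w z l k) z)
    (hh : ∀ᶠ y in 𝓝 z, (w y).IsHermitian) (u v x : Cm d) :
    fderiv ℝ (fun z => kfd (w z)) z u v x + fderiv ℝ (fun z => kfd (w z)) z v x u +
      fderiv ℝ (fun z => kfd (w z)) z x u v = 0 := by
  have hdw : ∀ j k, DifferentiableAt ℝ (fun z => w z j k) z := fun j k =>
    (hw j k).differentiableAt (by simp)
  have hclb : ∀ j k l, dzb l (fun z => w z j k) z = dzb k (fun z => w z j l) z := by
    intro j k l
    have h3 : ∀ p q r, dzb r (fun z => w z p q) z = conj (dz r (fun z => w z q p) z) := by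
      intro p q r
      rw [← C2.dzb_conj r (hdw q p)]
      refine C2.dzb_congr r ?_
      filter_upwards [hh] with y hy
      exact (hy.apply p q).symm
    rw [h3, h3, hcl]
  set A : Fin d → Fin d → Fin d → ℂ := fun c a b => dz c (fun z => w z a b) z with hA
  set B : Fin d → Fin d → Fin d → ℂ := fun c a b => dzb c (fun z => w z a b) z with hB
  have hA1 : ∀ a b c, A c a b = A a c b := fun a b c => hcl a b c
  have hB1 : ∀ a b c, B c a b = B b a c := fun a b c => hclb a b c
  have key : ∀ u v x : Cm d, fderiv ℝ (fun z => kfd (w z)) z u v x = Complex.I / 2 *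
      (Ts A (fun c => u c) (fun c => v c) (fun c => conj (x c)) -
        Ts A (fun c => u c) (fun c => x c) (fun c => conj (v c)) +
        (Ts B (fun c => conj (u c)) (fun c => v c) (fun c => conj (x c)) -
        Ts B (fun c => conj (u c)) (fun c => x c) (fun c => conj (v c)))) := by
    intro u v x
    refine (fderiv_KFg zo zc hw u v x).trans ?_
    simp only [zo_apply, zc_apply, Ts, ← Finset.sum_sub_distrib, ← Finset.sum_add_distrib,
      Finset.mul_sum]
    refine Finset.sum_congr rfl fun a _ => Finset.sum_congr rfl fun b _ => ?_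
    rw [fd_dz (fun z => w z a b) z u, Finset.sum_mul, Finset.mul_sum]
    refine Finset.sum_congr rfl fun c _ => ?_
    simp only [hA, hB]
    ring
  rw [key, key, key, Ts_swapA hA1 (fun c => u c) (fun c => v c),
    Ts_swapA hA1 (fun c => u c) (fun c => x c),
    Ts_swapA hA1 (fun c => v c) (fun c => x c),
    Ts_swapB hB1 (fun c => conj (u c)) (fun c => v c) (fun c => conj (x c)),
    Ts_swapB hB1 (fun c => conj (u c)) (fun c => x c) (fun c => conj (v c)),
    Ts_swapB hB1 (fun c => conj (v c)) (fun c => u c) (fun c => conj (x c))]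
  ring

/-- **The fundamental form of a Kähler metric is a closed 2-form.** -/
theorem kah_cl2 (hw : Kah S w) : Cl2 S (fun i z => kfd (w i z)) := by
  have hs : ∀ i, ∀ z ∈ ball (0 : Cm d) 3, ∀ j k, ContDiffAt ℝ ∞ (fun z => w i z j k) z :=
    fun i z hz j k => (hw.smooth i j k).contDiffAt (isOpen_ball.mem_nhds hz)
  refine ⟨⟨?_, ?_, ?_⟩, ?_⟩
  · intro i z hz _
    exact KFg_smooth zo zc (hs i z hz)
  · intro i z hz _ u v
    exact kfd_alt _ u v
  · intro i j z hz z' hz' _ ψ hψ u v
    obtain ⟨h0, h1, h2, h3, -⟩ := Tr_eq S hz hz' hψ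
    have h4 := hw.change i j z hz z' hz' 1 _ h2 h1 (by simpa only [one_smul] using h3)
    simp only [h4]
    exact kfd_change (Tr_fderiv S hz hz' hψ u) (Tr_fderiv S hz hz' hψ v)
  · intro i z hz u v x
    refine kfd_closed (hs i z hz) (hw.closed i z hz) ?_ u v x
    filter_upwards [isOpen_ball.mem_nhds hz] with y hy
    exact (hw.posDef i y hy).isHermitian

theorem kah_real2 (hw : Kah S w) : Real2 S (fun i z => kfd (w i z)) := fun i z hz u v =>
  kfd_im (hw.posDef i z hz).isHermitian u v

end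

/-- On the fibres. -/
theorem KF_fib_d {p : ℕ} (w : Matrix (Fin p ⊕ Fin d) (Fin p ⊕ Fin d) ℂ) (u v : Cm d) :
    KF w (0, u) (0, v) = kfd (Matrix.of fun j k => w (Sum.inr j) (Sum.inr k)) u v := by
  rw [KF_apply, kfd_apply]
  simp only [Fintype.sum_sum_type, co_inl, co_inr, Pi.zero_apply, map_zero, zero_mul, mul_zero,
    sub_zero, Finset.sum_const_zero, zero_add, Matrix.of_apply]
  refine congrArg _ (Finset.sum_congr rfl fun j _ => Finset.sum_congr rfl fun k _ => ?_)
  ring

end Vale.Agent.P281.H834.HK
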