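import Vale.Agent.P281.H834.HK.Bil
import Vale.Agent.P281.H83.HK.Spec

/-!
# P281, project T-HK (helper834): `H⁰(Ω²) ⊕ ℝ w` in the lattice of a marking (port of
`H747/TS/Lat.lean`)
-/

open Set Filter Metric MeasureTheory
open scoped Topology ContDiff ComplexConjugate ComplexOrder

noncomputable section

namespace Vale.Agent.P281.H834.HK

open Vale.Agent.P281.H64.TK Vale.Agent.P281.H64.TK.TS
open Vale.Agent.P281.H64 (Cm)
open Vale.Agent.P281.H713 (bil)
open Vale.Agent.P281.H83.HK (bW W3 kw ts cjs cj tf Bc kc Hol2 Gen2 FormsStmt PosStmt HIStmt)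
open Vale.Agent.P281.H747.TS (l2_ext sum_ap exact_congr exact_zero exact_smul exact_add_smul
  cl2_congr cl2_zero cl2_add_smul cl2_smul cl2_add cl2_sub cl2_sum cl_unique cl_congr cl_add_smul
  cl_of_exact exact_of_cl cl_zero cl_add cl_lin cl_im cl_conj bil_re bil_right dot_symm PhiP
  PhiP_apply)

section
variable {d : ℕ} {E Γ : Type} [TopologicalSpace E] [Group Γ] [MulAction Γ E] {S : Sheets d E Γ}

/-! ### Closed holomorphic 2-forms -/

theorem hol2_zero : Hol2 S (fun _ _ => 0) where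
  hol _ _ _ := differentiableOn_const _
  alt _ _ _ := by simp
  closed i z hz j k l := by simp [dd]
  change _ _ _ _ _ _ _ _ _ _ := by simp

theorem dd_add_smul {f g : Cm d → ℂ} {z : Cm d} (hf : DifferentiableAt ℂ f z)
    (hg : DifferentiableAt ℂ g z) (c : ℂ) (l : Fin d) :
    dd l (fun z => f z + c * g z) z = dd l f z + c * dd l g z := by
  unfold dd
  rw [fderiv_fun_add hf (hg.const_mul c), fderiv_const_mul hg]
  rfl

theorem hol2_add_smul {s s' : Fin S.N → Cm d → Matrix (Fin d) (Fin d) ℂ} (h : Hol2 S s)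
    (h' : Hol2 S s') (c : ℂ) : Hol2 S (fun i z => s i z + c • s' i z) where
  hol i j k := (h.hol i j k).add ((differentiableOn_const c).mul (h'.hol i j k))
  alt i z hz := by
    rw [Matrix.transpose_add, Matrix.transpose_smul, h.alt i z hz, h'.alt i z hz, neg_add, smul_neg]
  closed i z hz j k l := by
    have hd : ∀ j k, DifferentiableAt ℂ (fun z => s i z j k) z := fun j k =>
      (h.hol i j k).differentiableAt (isOpen_ball.mem_nhds hz)
    have hd' : ∀ j k, DifferentiableAt ℂ (fun z => s' i z j k) z := fun j k =>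
      (h'.hol i j k).differentiableAt (isOpen_ball.mem_nhds hz)
    have e : ∀ l j k, dd l (fun z => (s i z + c • s' i z) j k) z =
        dd l (fun z => s i z j k) z + c * dd l (fun z => s' i z j k) z := fun l j k =>
      dd_add_smul (hd j k) (hd' j k) c l
    rw [e, e, e]
    linear_combination h.closed i z hz j k l + c * h'.closed i z hz j k l
  change i j z hz z' hz' θ h1 h2 h3 := by
    rw [h.change i j z hz z' hz' θ h1 h2 h3, h'.change i j z hz z' hz' θ h1 h2 h3]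
    simp only [Matrix.mul_add, Matrix.add_mul, Matrix.mul_smul, Matrix.smul_mul]

theorem tf_add_smul (s s' : Matrix (Fin d) (Fin d) ℂ) (c : ℂ) :
    tf (s + c • s') = tf s + c • tf s' := l2_ext fun u v => by
  show ∑ j, ∑ k, (s + c • s') j k * (u j * v k) =
    (∑ j, ∑ k, s j k * (u j * v k)) + c * ∑ j, ∑ k, s' j k * (u j * v k)
  rw [Finset.mul_sum, ← Finset.sum_add_distrib]
  refine Finset.sum_congr rfl fun j _ => ?_
  rw [Finset.mul_sum, ← Finset.sum_add_distrib]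
  refine Finset.sum_congr rfl fun k _ => ?_
  rw [Matrix.add_apply, Matrix.smul_apply, smul_eq_mul]
  ring

theorem tf_zero : tf (0 : Matrix (Fin d) (Fin d) ℂ) = 0 := l2_ext fun u v => by
  show ∑ j, ∑ k, (0 : Matrix (Fin d) (Fin d) ℂ) j k * (u j * v k) = 0
  simp

end

section
variable {d : ℕ} {E Γ : Type} [TopologicalSpace E] [T2Space E] [Group Γ] [Subsingleton Γ]
  [MulAction Γ E] [ContinuousConstSMul Γ E] {S : Sheets d E Γ}
  {w : Fin S.N → Cm d → Matrix (Fin d) (Fin d) ℂ}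

/-- The bundle of the inputs on `S`, `w`. -/
structure Inp (S : Sheets d E Γ) (w : Fin S.N → Cm d → Matrix (Fin d) (Fin d) ℂ) : Prop where
  hd : 2 ≤ d
  kah : Kah S w
  cl : ∀ s, Hol2 S s → Cl2 S (ts s)
  cj : ∀ a : Fin S.N → Cm d → L2 d, Cl2 S a → Cl2 S (cjs a)
  pos : Nonempty E → 0 < (bW S (kw w) (kw w) (kw w)).re ∧ ∀ s s', Hol2 S s → Hol2 S s' →
      bW S (ts s) (ts s') (kw w) = 0 ∧ bW S (ts s) (kw w) (kw w) = 0 ∧
      ((∃ i, ∃ z ∈ ball (0 : Cm d) 3, s i z ≠ 0) →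
        0 < (bW S (ts s) (cjs (ts s)) (kw w)).re)
  hi : ∀ α : Fin S.N → Cm d → L2 d, Cl2 S α → Real2 S α → bW S α (kw w) (kw w) = 0 →
    (∀ s, Hol2 S s → bW S α (ts s) (kw w) = 0) →
    (bW S α α (kw w)).re ≤ 0 ∧ ((bW S α α (kw w)).re = 0 → Exact S α)

omit [T2Space E] [ContinuousConstSMul Γ E] [Subsingleton Γ] in
theorem cl_ts_add_smul (I : Inp S w) {n : ℕ} (M : Mark2 S n)
    {s s' : Fin S.N → Cm d → Matrix (Fin d) (Fin d) ℂ} (h : Hol2 S s) (h' : Hol2 S s') (c : ℂ) :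
    M.cl (ts fun i z => s i z + c • s' i z) = M.cl (ts s) + c • M.cl (ts s') := by
  rw [← cl_add_smul M (I.cl s h) (I.cl s' h')]
  exact cl_congr M (I.cl _ (hol2_add_smul h h' c)) fun i z _ => tf_add_smul _ _ _

omit [T2Space E] [ContinuousConstSMul Γ E] [Subsingleton Γ] in
theorem cl_ts_zero {n : ℕ} (M : Mark2 S n) {s : Fin S.N → Cm d → Matrix (Fin d) (Fin d) ℂ}
    (h : ∀ i, ∀ z ∈ ball (0 : Cm d) 3, s i z = 0) : M.cl (ts s) = 0 := by
  rw [← cl_zero M]
  exact (cl_congr M cl2_zero fun i z hz => by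
    show (0 : L2 d) = tf (s i z)
    rw [h i z hz, tf_zero]).symm

/-- The classes of the closed holomorphic 2-forms. -/
def Ls (I : Inp S w) {n : ℕ} (M : Mark2 S n) : Submodule ℂ (Fin n → ℂ) where
  carrier := {x | ∃ s, Hol2 S s ∧ M.cl (ts s) = x}
  add_mem' := by
    rintro _ _ ⟨s, hs, rfl⟩ ⟨s', hs', rfl⟩
    refine ⟨fun i z => s i z + (1 : ℂ) • s' i z, hol2_add_smul hs hs' 1, ?_⟩
    rw [cl_ts_add_smul I M hs hs', one_smul]
  zero_mem' := ⟨fun _ _ => 0, hol2_zero, cl_ts_zero M fun _ _ _ => rfl⟩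
  smul_mem' := by
    rintro c _ ⟨s, hs, rfl⟩
    refine ⟨fun i z => 0 + c • s i z, hol2_add_smul hol2_zero hs c, ?_⟩
    rw [cl_ts_add_smul I M hol2_zero hs, cl_ts_zero M (s := fun _ _ => 0) fun _ _ _ => rfl,
      zero_add]

/-- The form `s + conj s + c w`. -/
def sk (s : Fin S.N → Cm d → Matrix (Fin d) (Fin d) ℂ)
    (w : Fin S.N → Cm d → Matrix (Fin d) (Fin d) ℂ) (c : ℝ) (i : Fin S.N) (z : Cm d) : L2 d :=
  ts s i z + (1 : ℂ) • (cjs (ts s) i z + (c : ℂ) • kw w i z)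

omit [T2Space E] [ContinuousConstSMul Γ E] [Subsingleton Γ] in
theorem cl2_sk (I : Inp S w) {s : Fin S.N → Cm d → Matrix (Fin d) (Fin d) ℂ} (hs : Hol2 S s)
    (c : ℝ) : Cl2 S (sk s w c) :=
  cl2_add_smul (I.cl s hs) (cl2_add_smul (I.cj _ (I.cl s hs)) (kw_cl2 I.kah) (c : ℂ)) 1

omit [T2Space E] in
/-- The square of `s + conj s + c w`. -/
theorem bW_sk (I : Inp S w) (hE : Nonempty E) {s : Fin S.N → Cm d → Matrix (Fin d) (Fin d) ℂ}
    (hs : Hol2 S s) (c : ℝ) : bW S (sk s w c) (sk s w c) (kw w) =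
      2 * bW S (ts s) (cjs (ts s)) (kw w) + c ^ 2 * bW S (kw w) (kw w) (kw w) := by
  have hd : 1 < d := I.hd
  have k1 := I.cl s hs
  have k2 := I.cj _ k1
  have k3 : Cl2 S (kw w) := kw_cl2 I.kah
  have k4 := kw_real2 I.kah
  have k5 : Cl2 S (fun i z => cjs (ts s) i z + (c : ℂ) • kw w i z) := cl2_add_smul k2 k3 c
  have k6 := cl2_sk I hs c
  obtain ⟨-, h2⟩ := I.pos hE
  obtain ⟨h3, h4, -⟩ := h2 s s hs hs
  have h5 : bW S (cjs (ts s)) (cjs (ts s)) (kw w) = 0 := by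
    rw [bW_conj' k4, h3, map_zero]
  have h6 : bW S (cjs (ts s)) (kw w) (kw w) = 0 := by
    have h7 : bW S (cjs (ts s)) (kw w) (kw w) = bW S (cjs (ts s)) (cjs (kw w)) (kw w) :=
      bW_congr (fun _ _ _ => rfl) (fun i z hz => (cjs_real k4 i z hz).symm) fun _ _ _ => rfl
    rw [h7, bW_conj' k4, h4, map_zero]
  have e : ∀ b, Cl2 S b → bW S (sk s w c) b (kw w) =
      bW S (ts s) b (kw w) + bW S (cjs (ts s)) b (kw w) + c * bW S (kw w) b (kw w) := by
    intro b hb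
    have e1 : bW S (sk s w c) b (kw w) = bW S (ts s) b (kw w) +
      1 * bW S (fun i z => cjs (ts s) i z + (c : ℂ) • kw w i z) b (kw w) :=
      bW_add_smul (by omega) k1 k5 hb k3 1
    rw [e1, bW_add_smul (by omega) k2 k3 hb k3]
    ring
  rw [e _ k6, bW_comm hd (ts s), bW_comm hd (cjs (ts s)), bW_comm hd (kw w), e _ k1, e _ k2, e _ k3,
    h3, h5, h6, h4, bW_comm hd (cjs (ts s)) (ts s), bW_comm hd (kw w) (ts s), h4,
    bW_comm hd (kw w) (cjs (ts s)), h6]
  ring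

omit [T2Space E] [ContinuousConstSMul Γ E] [Subsingleton Γ] in
theorem cl_sk (I : Inp S w) {n : ℕ} (M : Mark2 S n)
    {s : Fin S.N → Cm d → Matrix (Fin d) (Fin d) ℂ} (hs : Hol2 S s) (c : ℝ) (k : Fin n) :
    M.cl (sk s w c) k = ((2 * (M.cl (ts s) k).re + c * kc M w k : ℝ) : ℂ) := by
  have k1 := I.cl s hs
  have k2 := I.cj _ k1
  have k3 : Cl2 S (kw w) := kw_cl2 I.kah
  have h1 : M.cl (sk s w c) = M.cl (ts s) + (1 : ℂ) •
      M.cl (fun i z => cjs (ts s) i z + (c : ℂ) • kw w i z) :=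
    cl_add_smul M k1 (cl2_add_smul k2 k3 c) 1
  have h2 := cl_add_smul M k2 k3 (c : ℂ)
  have h3 : M.cl (cjs (ts s)) = fun k => conj (M.cl (ts s) k) := by
    have := cl_conj M k1
    rw [← this]
    exact cl_congr M k2 fun i z _ => l2_ext fun u v => rfl
  have h4 : (M.cl (kw w) k).im = 0 := cl_im M k3 (kw_real2 I.kah) k
  rw [h1, h2, h3]
  have h5 : kc M w k = (M.cl (kw w) k).re := rfl
  apply Complex.ext
  · simp [h5]
    ring
  · simp [h4]

end

end Vale.Agent.P281.H834.HK
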