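import Vale.Agent.P281.H834.HK.BmC
import Vale.Agent.P281.H83.HK.Spec

/-!
# P281, project T-HK (helper834): block F3 (`KConst2Stmt`), the part `kw` of block I0
-/

open Set Filter Metric MeasureTheory
open scoped Topology ContDiff ComplexConjugate ComplexOrder

noncomputable section

namespace Vale.Agent.P281.H834.HK

open Vale.Agent.P281.H64.TK Vale.Agent.P281.H64.TK.TS
open Vale.Agent.P281.H64 (Cm)

/-- **F3**: the class of the Kähler metric is locally constant. -/
theorem kConst2 (hG : GoodStmt) (hCo : CoCobStmt) : H83.HK.KConst2Stmt := by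
  intro p d E Γ _ _ _ _ _ _ 𝓕 W t₀ ht₀ n M α hd hW hα
  exact kConst_kw hG hCo hd 𝓕 W t₀ ht₀ n M α hW hα

/-- The part `kw` of **I0**. -/
theorem kwForms (d : ℕ) (E Γ : Type) [TopologicalSpace E] [Group Γ] [MulAction Γ E]
    (S : Sheets d E Γ) (w : Fin S.N → Cm d → Matrix (Fin d) (Fin d) ℂ) (hw : Kah S w) :
    Cl2 S (H83.HK.kw w) ∧ Real2 S (H83.HK.kw w) :=
  ⟨kw_cl2 hw, kw_real2 hw⟩

end Vale.Agent.P281.H834.HK
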