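import Vale.Agent.P281.H834.HK.Sgn
import Vale.Agent.P281.H603.K.Fib

/-!
# P281, project T-HK (helper834): block D1' (`Gen2ConstStmt`): `h^{2,0}` is constant in a family of
compact Kähler manifolds, if it is one somewhere
-/

open Set Filter Metric MeasureTheory
open scoped Topology ContDiff ComplexConjugate ComplexOrder

noncomputable section

namespace Vale.Agent.P281.H834.HK

open Vale.Agent.P281.H64.TK Vale.Agent.P281.H64.TK.TS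
open Vale.Agent.P281.H64 (Cm)
open Vale.Agent.P281.H83.HK (bW W3 kw ts cjs cj tf Bc kc Hol2 Gen2 FormsStmt PosStmt HIStmt
  PullMark2Stmt KConst2Stmt Gen2ConstStmt)
open Vale.Agent.P281.H747.TS (l2_ext sum_ap exact_congr exact_zero exact_smul exact_add_smul
  cl2_congr cl2_zero cl2_add_smul cl2_smul cl2_add cl2_sub cl2_sum cl_unique cl_congr cl_add_smul
  cl_of_exact exact_of_cl cl_zero cl_add cl_lin cl_im cl_conj bil_re bil_right dot_symm PhiP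
  PhiP_apply)

theorem mkInp (hF : FormsStmt) (hPos : PosStmt) (hHI : HIStmt) {d : ℕ} {E Γ : Type}
    [TopologicalSpace E] [T2Space E] [PreconnectedSpace E] [Group Γ] [Subsingleton Γ]
    [MulAction Γ E] [ContinuousConstSMul Γ E] {S : Sheets d E Γ}
    {w : Fin S.N → Cm d → Matrix (Fin d) (Fin d) ℂ} (hd : 2 ≤ d) (hw : Kah S w) : Inp S w where
  hd := hd
  kah := hw
  cl := (hF d E Γ S (by omega)).1
  cj := (hF d E Γ S (by omega)).2.2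
  pos := fun _ => hPos d E Γ S w hd hw
  hi := fun α h1 h2 h3 h4 => hHI d E Γ S w α hd hw h1 h2 h3 h4

section
variable {p d : ℕ} {E Γ : Type} [TopologicalSpace E] [T2Space E] [PreconnectedSpace E] [Group Γ]
  [Subsingleton Γ] [MulAction Γ E] [ContinuousConstSMul Γ E] (𝓕 : Fam p d E Γ)

omit [T2Space E] [PreconnectedSpace E] [Subsingleton Γ] [ContinuousConstSMul Γ E] in
theorem dif_fib {t t' : Cm p} (ht : t ∈ 𝓕.T) (ht' : t' ∈ 𝓕.T) :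
    Dif (𝓕.at t ht) (𝓕.at t' ht') (Homeomorph.refl E) := by
  intro i j z hz z' hz' he
  obtain ⟨ψ, k1, k2, k3, k4⟩ := 𝓕.smooth i j t ht t' ht' z hz z' hz' 1 (by
    rw [one_smul]; exact he)
  exact ⟨ψ, ⟨k1, k2, k4.mono fun u hu => by
    have h := hu
    rw [one_smul] at h
    exact h⟩, k3⟩

omit [T2Space E] [PreconnectedSpace E] [Subsingleton Γ] [ContinuousConstSMul Γ E] in
theorem pull_self {t : Cm p} (ht : t ∈ 𝓕.T) {α α' : Fin (𝓕.at t ht).N → Cm d → L2 d}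
    (h : Pull2 (𝓕.at t ht) (𝓕.at t ht) id α α') :
    ∀ i, ∀ z ∈ ball (0 : Cm d) 3, α i z = α' i z := by
  intro i z hz
  refine l2_ext fun u v => ?_
  have h1 := h i i z hz z hz id ⟨contDiffAt_id, rfl, Filter.Eventually.of_forall fun u => rfl⟩ u v
  rw [h1, fderiv_id]
  rfl

/-- Near `t₀`. -/
theorem gen2_loc (hMk : MarkStmt) (hP : PullStmt) (hF : FormsStmt) (hPos : PosStmt) (hHI : HIStmt)
    (hPM : PullMark2Stmt) (hK : KConst2Stmt) (hSig : SigStmt)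
    {W : Fin 𝓕.N → Cm p × Cm d → Matrix (Fin p ⊕ Fin d) (Fin p ⊕ Fin d) ℂ} (hd : 2 ≤ d)
    (hKF : KFam 𝓕 W) {t₀ : Cm p} (ht₀ : t₀ ∈ 𝓕.T) :
    ∀ᶠ t in 𝓝 t₀, ∀ ht : t ∈ 𝓕.T, (∃ s, Gen2 (𝓕.at t ht) s) ↔ ∃ s, Gen2 (𝓕.at t₀ ht₀) s := by
  classical
  by_cases hE : Nonempty E
  swap
  · refine Filter.Eventually.of_forall fun t ht => ⟨?_, ?_⟩
    · rintro ⟨s, hs⟩
      obtain ⟨i, z, -, -⟩ := hs.ne
      exact absurd ⟨(𝓕.at t ht).σ i z⟩ hE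
    · rintro ⟨s, hs⟩
      obtain ⟨i, z, -, -⟩ := hs.ne
      exact absurd ⟨(𝓕.at t₀ ht₀).σ i z⟩ hE
  have hd0 : 0 < d := by omega
  have hw : ∀ t (ht : t ∈ 𝓕.T), Kah (𝓕.at t ht) (fibW W t) := fun t ht => H603.K.kah_fib hKF ht
  obtain ⟨n₀, ⟨M₀⟩⟩ := hMk d E Γ (𝓕.at t₀ ht₀) hd0
  have hex : ∀ t (ht : t ∈ 𝓕.T), ∃ α, Cl2 (𝓕.at t₀ ht₀) α ∧
      Pull2 (𝓕.at t₀ ht₀) (𝓕.at t ht) id α (kw (N := (𝓕.at t ht).N) (fibW W t)) := by
    intro t ht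
    exact (hP d E Γ (𝓕.at t₀ ht₀) E Γ (𝓕.at t ht) (Homeomorph.refl E) hd0
      (dif_fib 𝓕 ht₀ ht)).2.1 _ (kw_cl2 (hw t ht))
  choose a ha using hex
  set α : Cm p → Fin (𝓕.at t₀ ht₀).N → Cm d → L2 d :=
    fun t => if ht : t ∈ 𝓕.T then a t ht else fun _ _ => 0 with hα
  have hα1 : ∀ t (ht : t ∈ 𝓕.T), α t = a t ht := fun t ht => dif_pos ht
  have hα2 : ∀ t (ht : t ∈ 𝓕.T), Cl2 (𝓕.at t₀ ht₀) (α t) ∧
      Pull2 (𝓕.at t₀ ht₀) (𝓕.at t ht) id (α t) (kw (N := (𝓕.at t ht).N) (fibW W t)) := by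
    intro t ht
    rw [hα1 t ht]
    exact ha t ht
  filter_upwards [hK p d E Γ 𝓕 W t₀ ht₀ n₀ M₀ α hd0 hKF hα2] with t h1 ht
  -- the difference is exact
  have k0 : Cl2 (𝓕.at t₀ ht₀) (kw (N := (𝓕.at t₀ ht₀).N) (fibW W t₀)) := kw_cl2 (hw t₀ ht₀)
  have k1 : Cl2 (𝓕.at t₀ ht₀) (α t) := (hα2 t ht).1
  have h2 : M₀.cl (α t₀) = M₀.cl (kw (N := (𝓕.at t₀ ht₀).N) (fibW W t₀)) :=
    cl_congr M₀ (hα2 t₀ ht₀).1 (pull_self 𝓕 ht₀ (hα2 t₀ ht₀).2)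
  have h3 : Exact (𝓕.at t₀ ht₀)
      (fun i z => α t i z - kw (N := (𝓕.at t₀ ht₀).N) (fibW W t₀) i z) := by
    refine exact_of_cl M₀ (cl2_sub k1 k0) ?_
    have h4 := cl_add_smul M₀ k1 k0 (-1)
    have h5 : M₀.cl (fun i z => α t i z - kw (N := (𝓕.at t₀ ht₀).N) (fibW W t₀) i z) =
        M₀.cl (fun i z => α t i z + (-1 : ℂ) • kw (N := (𝓕.at t₀ ht₀).N) (fibW W t₀) i z) :=
      cl_congr M₀ (cl2_sub k1 k0) fun i z _ => l2_ext fun u v => by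
        show α t i z u v - kw (N := (𝓕.at t₀ ht₀).N) (fibW W t₀) i z u v =
          α t i z u v + (-1 : ℂ) * kw (N := (𝓕.at t₀ ht₀).N) (fibW W t₀) i z u v
        ring
    rw [h5, h4, h1, h2, neg_one_smul, add_neg_cancel]
  -- the markings
  obtain ⟨n, ⟨M'⟩⟩ := hMk d E Γ (𝓕.at t ht) hd0
  obtain ⟨M, hB, -, -⟩ := hPM d E Γ (𝓕.at t₀ ht₀) E Γ (𝓕.at t ht) (Homeomorph.refl E) n M'
    (fibW W t₀) (fibW W t) (α t) hd (dif_fib 𝓕 ht₀ ht) (hw t₀ ht₀) (hw t ht) k1 (hα2 t ht).2 h3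
  have I₀ : Inp (𝓕.at t₀ ht₀) (fibW W t₀) := mkInp hF hPos hHI hd (hw t₀ ht₀)
  have I : Inp (𝓕.at t ht) (fibW W t) := mkInp hF hPos hHI hd (hw t ht)
  have hfin := hSig n (Bc M (kw (fibW W t₀))) (Bc_symm hd M _)
    (LinearMap.range (PhiP (Ls I₀ M) (kc M (fibW W t₀))))
    (LinearMap.range (PhiP (Ls I M') (kc M' (fibW W t))))
    (by
      rintro _ ⟨q, rfl⟩ hq
      refine phi_pos I₀ M hE q ?_
      rintro rfl
      exact hq (map_zero _))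
    (by
      rintro _ ⟨q, rfl⟩ hq
      rw [hB]
      refine phi_pos I M' hE q ?_
      rintro rfl
      exact hq (map_zero _))
    (fun x hx h => phi_neg I₀ M x hx h)
    (fun x hx h => by
      rw [hB] at h ⊢
      exact phi_neg I M' x hx h)
  rw [finrank_range I₀ M hE, finrank_range I M' hE] at hfin
  rw [gen2_iff I M', gen2_iff I₀ M]
  omega

end

/-- **D1'** from `MarkStmt`, `PullStmt`, I0, I3, HI, D4', F3 and the signature. -/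
theorem gen2Const (hMk : MarkStmt) (hP : PullStmt) (hF : FormsStmt) (hPos : PosStmt)
    (hHI : HIStmt) (hPM : PullMark2Stmt) (hK : KConst2Stmt) (hSig : SigStmt) :
    Gen2ConstStmt := by
  intro p d E Γ _ _ _ _ _ _ _ 𝓕 W hd hKF t ht t' ht' h1
  have : PreconnectedSpace 𝓕.T := Subtype.preconnectedSpace 𝓕.conn
  have hl : IsLocallyConstant (fun t : 𝓕.T => (∃ s, Gen2 (𝓕.at t.1 t.2) s)) := by
    rw [IsLocallyConstant.iff_eventually_eq]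
    rintro ⟨t₀, ht₀⟩
    have h2 := gen2_loc 𝓕 hMk hP hF hPos hHI hPM hK hSig hd hKF ht₀
    have h3 : Tendsto (Subtype.val : 𝓕.T → Cm p) (𝓝 ⟨t₀, ht₀⟩) (𝓝 t₀) :=
      continuous_subtype_val.continuousAt
    filter_upwards [h3.eventually h2] with t h4
    exact propext (h4 t.2)
  have h5 := hl.apply_eq_of_preconnectedSpace ⟨t, ht⟩ ⟨t', ht'⟩
  exact (iff_of_eq h5).1 h1

end Vale.Agent.P281.H834.HK
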