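import Vale.Agent.P281.H834.HK.BmC
import Vale.Agent.P281.H864.HK.WInt
import Vale.Agent.P281.H747.TS.Lat

/-!
# P281, project T-HK (helper834): the bilinear form `∫ a ∧ b ∧ c^(d-2)` in the coordinates of a
marking
-/

open Set Filter Metric MeasureTheory
open scoped Topology ContDiff ComplexConjugate ComplexOrder

noncomputable section

namespace Vale.Agent.P281.H834.HK

open Vale.Agent.P281.H64.TK Vale.Agent.P281.H64.TK.TS
open Vale.Agent.P281.H64 (Cm)
open Vale.Agent.P281.H713 (bil)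
open Vale.Agent.P281.H83.HK (bW W3 kw ts cjs cj tf Bc kc Hol2 Gen2)
open Vale.Agent.P281.H747.TS (l2_ext sum_ap exact_congr exact_zero exact_smul exact_add_smul
  cl2_congr cl2_zero cl2_add_smul cl2_smul cl2_add cl2_sub cl2_sum cl_unique cl_congr cl_add_smul
  cl_of_exact exact_of_cl)

section
variable {d : ℕ} {E Γ : Type} [TopologicalSpace E] [Group Γ] [MulAction Γ E]
  [ContinuousConstSMul Γ E] [Subsingleton Γ] {S : Sheets d E Γ}

omit [Subsingleton Γ] in
theorem bW_congr {a a' b b' c c' : Fin S.N → Cm d → L2 d}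
    (ha : ∀ i, ∀ z ∈ ball (0 : Cm d) 3, a i z = a' i z)
    (hb : ∀ i, ∀ z ∈ ball (0 : Cm d) 3, b i z = b' i z)
    (hc : ∀ i, ∀ z ∈ ball (0 : Cm d) 3, c i z = c' i z) : bW S a b c = bW S a' b' c' := by
  unfold bW
  exact H864.HK.int_congr S fun i z hz => by rw [ha i z hz, hb i z hz, hc i z hz]

theorem cont_W3 {a b c : Fin S.N → Cm d → L2 d} (ha : Cl2 S a) (hb : Cl2 S b) (hc : Cl2 S c)
    (i : Fin S.N) : ContinuousOn (fun z => W3 (a i z) (b i z) (c i z)) (ball 0 3) := by
  have h : ∀ k : Fin d, Cl2 S ((fun k : Fin d => if k.val = 0 then a else if k.val = 1 then b else c) k) := by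
    intro k
    show Cl2 S (if k.val = 0 then a else if k.val = 1 then b else c)
    split_ifs
    · exact ha
    · exact hb
    · exact hc
  have h1 := H864.HK.wint_cont h i
  refine h1.congr fun z _ => ?_
  show W3 (a i z) (b i z) (c i z) = _
  rw [W3, H864.HK.W_eq]
  congr 1
  funext k
  show H83.HK.abc (a i z) (b i z) (c i z) k =
    (if k.val = 0 then a else if k.val = 1 then b else c) i z
  unfold H83.HK.abc
  split_ifs <;> rfl

/-- Linearity in the first factor. -/
theorem bW_add_smul (hd : 0 < d) {a a' b c : Fin S.N → Cm d → L2 d} (ha : Cl2 S a)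
    (ha' : Cl2 S a') (hb : Cl2 S b) (hc : Cl2 S c) (x : ℂ) :
    bW S (fun i z => a i z + x • a' i z) b c = bW S a b c + x * bW S a' b c := by
  unfold bW H64.TK.Sheets.int
  rw [Finset.mul_sum, ← Finset.sum_add_distrib]
  refine Finset.sum_congr rfl fun i _ => ?_
  have h1 := H303.K.integrableOn_P S i (cont_W3 ha hb hc i)
  have h2 := H303.K.integrableOn_P S i (cont_W3 ha' hb hc i)
  rw [← integral_const_mul, ← integral_add h1 (h2.const_mul x)]
  refine integral_congr_ae (Filter.Eventually.of_forall fun z => ?_)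
  show W3 (a i z + x • a' i z) (b i z) (c i z) = _
  rw [H864.HK.W3_add_left hd, H864.HK.W3_smul_left hd]

omit [ContinuousConstSMul Γ E] [Subsingleton Γ] in
theorem bW_comm (hd : 1 < d) (a b c : Fin S.N → Cm d → L2 d) : bW S a b c = bW S b a c := by
  unfold bW
  congr 1
  funext i z
  exact H864.HK.W3_comm hd _ _ _

/-- Linearity in the second factor. -/
theorem bW_add_smul' (hd : 1 < d) {a b b' c : Fin S.N → Cm d → L2 d} (ha : Cl2 S a)
    (hb : Cl2 S b) (hb' : Cl2 S b') (hc : Cl2 S c) (x : ℂ) :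
    bW S a (fun i z => b i z + x • b' i z) c = bW S a b c + x * bW S a b' c := by
  rw [bW_comm hd, bW_add_smul (by omega) hb hb' ha hc, bW_comm hd b, bW_comm hd b']

theorem bW_zero (hd : 0 < d) {b c : Fin S.N → Cm d → L2 d} (hb : Cl2 S b) (hc : Cl2 S c) :
    bW S (fun _ _ => 0) b c = 0 := by
  have h := bW_add_smul hd (cl2_zero (S := S)) cl2_zero hb hc (-1)
  have h1 : bW S (fun i z => (0 : L2 d) + (-1 : ℂ) • (0 : L2 d)) b c = bW S (fun _ _ => 0) b c :=
    bW_congr (fun i z _ => l2_ext fun u v => by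
      show (0 : ℂ) + (-1 : ℂ) * (0 : ℂ) = 0
      ring) (fun _ _ _ => rfl) fun _ _ _ => rfl
  rw [h1] at h
  linear_combination h

theorem bW_exact (hd : 0 < d) {a b c : Fin S.N → Cm d → L2 d} (ha : Cl2 S a) (hb : Cl2 S b)
    (hc : Cl2 S c) (he : Exact S a) : bW S a b c = 0 := by
  rw [← bW_zero hd hb hc]
  refine bW_class ha cl2_zero hb hb hc hc ?_ (exact_self _) (exact_self _)
  exact exact_congr he fun i z _ => l2_ext fun u v => by
    show a i z u v = a i z u v - (0 : ℂ)
    ring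

theorem bW_sum (hd : 0 < d) {ι : Type} (s : Finset ι) {a : ι → Fin S.N → Cm d → L2 d}
    {b c : Fin S.N → Cm d → L2 d} (x : ι → ℂ) (h : ∀ k ∈ s, Cl2 S (a k)) (hb : Cl2 S b)
    (hc : Cl2 S c) :
    bW S (fun i z => ∑ k ∈ s, x k • a k i z) b c = ∑ k ∈ s, x k * bW S (a k) b c := by
  classical
  induction s using Finset.induction_on with
  | empty =>
    rw [Finset.sum_empty, ← bW_zero hd hb hc]
    exact bW_congr (fun i z _ => l2_ext fun u v => by rw [sum_ap]; rfl) (fun _ _ _ => rfl)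
      fun _ _ _ => rfl
  | insert j s hj ih =>
    have h1 := ih fun k hk => h k (Finset.mem_insert_of_mem hk)
    have h2 := bW_add_smul hd (cl2_sum s x fun k hk => h k (Finset.mem_insert_of_mem hk))
      (h j (Finset.mem_insert_self j s)) hb hc (x j)
    rw [Finset.sum_insert hj, ← h1, add_comm (x j * bW S (a j) b c), ← h2]
    refine bW_congr (fun i z _ => l2_ext fun u v => ?_) (fun _ _ _ => rfl) fun _ _ _ => rfl
    show (∑ k ∈ insert j s, x k • a k i z) u v = (∑ k ∈ s, x k • a k i z) u v + x j * a j i z u v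
    rw [sum_ap, sum_ap, Finset.sum_insert hj, add_comm]
    rfl

omit [ContinuousConstSMul Γ E] [Subsingleton Γ] in
theorem bW_conj {a b c : Fin S.N → Cm d → L2 d} :
    bW S (cjs a) (cjs b) (cjs c) = conj (bW S a b c) := by
  unfold bW H64.TK.Sheets.int
  rw [map_sum]
  refine Finset.sum_congr rfl fun i _ => ?_
  rw [← integral_conj]
  refine integral_congr_ae (Filter.Eventually.of_forall fun z => ?_)
  exact H864.HK.W3_conj (fun u v => rfl) (fun u v => rfl) fun u v => rfl

omit [ContinuousConstSMul Γ E] [Subsingleton Γ] in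
theorem cjs_real {c : Fin S.N → Cm d → L2 d} (hc : Real2 S c) (i : Fin S.N) (z : Cm d)
    (hz : z ∈ ball (0 : Cm d) 3) : cjs c i z = c i z :=
  l2_ext fun u v => by
    show conj (c i z u v) = c i z u v
    rw [Complex.conj_eq_iff_im.2 (hc i z hz u v)]

omit [Subsingleton Γ] in
theorem bW_conj' {a b c : Fin S.N → Cm d → L2 d} (hc : Real2 S c) :
    bW S (cjs a) (cjs b) c = conj (bW S a b c) := by
  rw [← bW_conj]
  exact bW_congr (fun _ _ _ => rfl) (fun _ _ _ => rfl) fun i z hz => (cjs_real hc i z hz).symm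

omit [Subsingleton Γ] in
theorem bW_real {a b c : Fin S.N → Cm d → L2 d} (ha : Real2 S a) (hb : Real2 S b)
    (hc : Real2 S c) : (bW S a b c).im = 0 := by
  refine Complex.conj_eq_iff_im.1 ?_
  rw [← bW_conj]
  exact bW_congr (cjs_real ha) (cjs_real hb) (cjs_real hc)

/-- **`∫ α ∧ β ∧ c^(d-2)` in the coordinates of a marking.** -/
theorem bW_cl (hd : 1 < d) {n : ℕ} (M : Mark2 S n) {a b c : Fin S.N → Cm d → L2 d}
    (ha : Cl2 S a) (hb : Cl2 S b) (hc : Cl2 S c) (hcr : Real2 S c) :
    bW S a b c = bil (Bc M c) (M.cl a) (M.cl b) := by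
  have hB' : ∀ k l, (Bc M c k l : ℂ) = bW S (M.b k) (M.b l) c := fun k l =>
    Complex.ext rfl (by rw [Complex.ofReal_im, bW_real (M.real k) (M.real l) hcr])
  have key : ∀ {a b : Fin S.N → Cm d → L2 d}, Cl2 S a → Cl2 S b →
      bW S a b c = ∑ k, M.cl a k * bW S (M.b k) b c := by
    intro a b ha hb
    have h1 := cl2_sum Finset.univ (M.cl a) fun k _ => M.closed k
    have h2 := bW_add_smul (by omega) ha h1 hb hc (-1)
    have e : ∀ i, ∀ z ∈ ball (0 : Cm d) 3, a i z - ∑ k, M.cl a k • M.b k i z =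
        a i z + (-1 : ℂ) • ∑ k, M.cl a k • M.b k i z := fun i z _ => l2_ext fun u v => by
      show a i z u v - (∑ k, M.cl a k • M.b k i z) u v =
        a i z u v + (-1 : ℂ) * (∑ k, M.cl a k • M.b k i z) u v
      ring
    have h3 : bW S (fun i z => a i z + (-1 : ℂ) • ∑ k, M.cl a k • M.b k i z) b c = 0 :=
      bW_exact (by omega) (cl2_add_smul ha h1 (-1)) hb hc (exact_congr (M.ex a ha) e)
    rw [h3, bW_sum (by omega) Finset.univ (M.cl a) (fun k _ => M.closed k) hb hc] at h2
    linear_combination -h2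
  rw [key ha hb]
  unfold bil
  refine Finset.sum_congr rfl fun k _ => ?_
  rw [bW_comm hd, key hb (M.closed k), Finset.mul_sum]
  refine Finset.sum_congr rfl fun l _ => ?_
  rw [hB' k l, bW_comm hd (M.b l)]
  ring

omit [ContinuousConstSMul Γ E] [Subsingleton Γ] in
theorem Bc_symm (hd : 1 < d) {n : ℕ} (M : Mark2 S n) (c : Fin S.N → Cm d → L2 d) :
    (Bc M c).IsSymm := by
  ext k l
  show (bW S (M.b l) (M.b k) c).re = (bW S (M.b k) (M.b l) c).re
  rw [bW_comm hd]

end

end Vale.Agent.P281.H834.HK
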