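import Vale.Agent.P281.H834.HK.Kw
import Vale.Agent.P281.H864.HK.WStokes

/-!
# P281, project T-HK (helper834): `∫ α_1 ∧ ⋯ ∧ α_d` depends on the classes of the closed forms only;
the form `B` of the Kähler metrics of a family is locally constant
-/

open Set Filter Metric MeasureTheory Vale.Agent.P281.H64
open scoped Topology ContDiff ComplexConjugate ComplexOrder

noncomputable section

namespace Vale.Agent.P281.H834.HK

open Vale.Agent.P281.H64.TK Vale.Agent.P281.H64.TK.TS Vale.Agent.P281.H834.TS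
open Vale.Agent.P281.H864.HK (Wint wint_exact isTop_W cont_W upd_ev f2_upd Wv_sub int_congr)
open Vale.Agent.P281.H125.TS (F2 f2_of)
open Vale.Agent.P281.H303.K (integrableOn_P)

section
variable {d : ℕ} {E Γ : Type} [TopologicalSpace E] [Group Γ] [MulAction Γ E]
  [ContinuousConstSMul Γ E]

theorem int_sub (S : Sheets d E Γ) {D D' : Fin S.N → Cm d → ℂ}
    (h : ∀ i, ContinuousOn (D i) (ball 0 3)) (h' : ∀ i, ContinuousOn (D' i) (ball 0 3)) :
    S.int (fun i z => D i z - D' i z) = S.int D - S.int D' := by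
  unfold H64.TK.Sheets.int
  rw [← Finset.sum_sub_distrib]
  exact Finset.sum_congr rfl fun i _ =>
    integral_sub (integrableOn_P S i (h i)) (integrableOn_P S i (h' i))

omit [ContinuousConstSMul Γ E] in
theorem cl2_upd {S : Sheets d E Γ} {α : Fin d → Fin S.N → Cm d → L2 d} {k₀ : Fin d}
    {x : Fin S.N → Cm d → L2 d} (hα : ∀ k, k ≠ k₀ → Cl2 S (α k)) (hx : Cl2 S x) (k : Fin d) :
    Cl2 S (Function.update α k₀ x k) := by
  by_cases hk : k = k₀
  · subst hk
    rw [Function.update_self]; exact hx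
  · rw [Function.update_of_ne hk]; exact hα k hk

omit [ContinuousConstSMul Γ E] in
theorem cont_Wint {S : Sheets d E Γ} [Subsingleton Γ] {α : Fin d → Fin S.N → Cm d → L2 d}
    (hα : ∀ k, Cl2 S (α k)) (i : Fin S.N) :
    ContinuousOn (fun z => H864.HK.W fun k => α k i z) (ball 0 3) :=
  cont_W fun k => ((f2_of (hα k).toF2On).smooth i).continuousOn

variable [Subsingleton Γ] {S : Sheets d E Γ}

/-- **Replacing one factor.** -/
theorem wint_upd {α : Fin d → Fin S.N → Cm d → L2 d} (k₀ : Fin d)
    (h : ∀ k, k ≠ k₀ → Cl2 S (α k)) {x y : Fin S.N → Cm d → L2 d} (hx : Cl2 S x) (hy : Cl2 S y)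
    (he : Exact S (fun i z => x i z - y i z)) :
    Wint S (Function.update α k₀ x) = Wint S (Function.update α k₀ y) := by
  have h0 : Wint S (Function.update α k₀ fun i z => x i z - y i z) = 0 := by
    refine wint_exact k₀ (fun k hk => ?_) ?_
    · rw [Function.update_of_ne hk]; exact h k hk
    · rw [Function.update_self]; exact he
  rw [← sub_eq_zero, ← h0]
  unfold Wint
  rw [← int_sub S (cont_Wint (cl2_upd h hx)) (cont_Wint (cl2_upd h hy))]
  congr 1
  funext i z
  simp only [upd_ev]
  have e := Wv_sub (H864.HK.rbp d) (fun k => α k i z) k₀ (x i z) (y i z)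
  exact e.symm

open Classical in
/-- **The integral depends on the classes only.** -/
theorem wint_class {α β : Fin d → Fin S.N → Cm d → L2 d} (hα : ∀ k, Cl2 S (α k))
    (hβ : ∀ k, Cl2 S (β k)) (he : ∀ k, Exact S (fun i z => α k i z - β k i z)) :
    Wint S α = Wint S β := by
  have key : ∀ s : Finset (Fin d), Wint S (fun k => if k ∈ s then α k else β k) = Wint S β := by
    intro s
    induction s using Finset.induction_on with
    | empty => simp
    | insert a s ha ih =>
      rw [← ih]
      have e1 : (fun k => if k ∈ insert a s then α k else β k) =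
          Function.update (fun k => if k ∈ s then α k else β k) a (α a) := by
        funext k
        by_cases hk : k = a
        · subst hk; simp
        · rw [Function.update_of_ne hk]; simp [Finset.mem_insert, hk]
      have e2 : (fun k => if k ∈ s then α k else β k) =
          Function.update (fun k => if k ∈ s then α k else β k) a (β a) := by
        funext k
        by_cases hk : k = a
        · subst hk; simp [ha]
        · rw [Function.update_of_ne hk]
      rw [e1]
      conv_rhs => rw [e2]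
      refine wint_upd a (fun k _ => ?_) (hα a) (hβ a) (he a)
      split_ifs
      · exact hα k
      · exact hβ k
  have h := key Finset.univ
  simpa using h

/-! ### `∫ a ∧ b ∧ c^(d-2)` -/

omit [ContinuousConstSMul Γ E] [Subsingleton Γ] in
theorem bW_eq (a b c : Fin S.N → Cm d → L2 d) : H83.HK.bW S a b c =
    Wint S (fun k : Fin d => if k.val = 0 then a else if k.val = 1 then b else c) := by
  unfold H83.HK.bW Wint H83.HK.W3
  congr 1
  funext i z
  rw [W_eq]
  congr 1
  funext k
  show H83.HK.abc (a i z) (b i z) (c i z) k =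
    (if k.val = 0 then a else if k.val = 1 then b else c) i z
  unfold H83.HK.abc
  split_ifs <;> rfl

/-- **`∫ a ∧ b ∧ c^(d-2)` depends on the classes of `a`, `b`, `c` only.** -/
theorem bW_class {a a' b b' c c' : Fin S.N → Cm d → L2 d} (ha : Cl2 S a) (ha' : Cl2 S a')
    (hb : Cl2 S b) (hb' : Cl2 S b') (hc : Cl2 S c) (hc' : Cl2 S c')
    (ea : Exact S (fun i z => a i z - a' i z)) (eb : Exact S (fun i z => b i z - b' i z))
    (ec : Exact S (fun i z => c i z - c' i z)) :
    H83.HK.bW S a b c = H83.HK.bW S a' b' c' := by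
  rw [bW_eq, bW_eq]
  refine wint_class (fun k => ?_) (fun k => ?_) (fun k => ?_)
  · split_ifs
    · exact ha
    · exact hb
    · exact hc
  · split_ifs
    · exact ha'
    · exact hb'
    · exact hc'
  · split_ifs
    · exact ea
    · exact eb
    · exact ec

omit [ContinuousConstSMul Γ E] [Subsingleton Γ] in
theorem exact_self (a : Fin S.N → Cm d → L2 d) : Exact S (fun i z => a i z - a i z) := by
  refine ⟨fun _ _ => 0, ⟨fun i z _ _ => contDiffAt_const, fun i j z _ z' _ _ ψ _ v => rfl⟩,
    fun i z _ _ u v => ?_⟩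
  simp

/-- **The form `B` depends on the class of `c` only.** -/
theorem Bc_class {n : ℕ} (M : Mark2 S n) {c c' : Fin S.N → Cm d → L2 d} (hc : Cl2 S c)
    (hc' : Cl2 S c') (e : Exact S (fun i z => c i z - c' i z)) :
    H83.HK.Bc M c = H83.HK.Bc M c' := by
  unfold H83.HK.Bc
  congr 1
  funext k l
  rw [bW_class (M.closed k) (M.closed k) (M.closed l) (M.closed l) hc hc' (exact_self _)
    (exact_self _) e]

end

/-- **The form `B(x, y) = ∫ x ∧ y ∧ w^(d-2)` of the Kähler metrics of a family is locally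
constant.** -/
theorem bmConst_kw (hG : GoodStmt) (hCo : CoCobStmt) {p d : ℕ} (hd : 0 < d) {E Γ : Type}
    [TopologicalSpace E] [T2Space E] [Group Γ] [Subsingleton Γ] [MulAction Γ E]
    [ContinuousConstSMul Γ E] (𝓕 : Fam p d E Γ)
    (W : Fin 𝓕.N → Cm p × Cm d → Matrix (Fin p ⊕ Fin d) (Fin p ⊕ Fin d) ℂ) (t₀ : Cm p)
    (ht₀ : t₀ ∈ 𝓕.T) (n : ℕ) (M : Mark2 (𝓕.at t₀ ht₀) n)
    (α : Cm p → Fin (𝓕.at t₀ ht₀).N → Cm d → L2 d) (hW : KFam 𝓕 W)
    (hα : ∀ t (ht : t ∈ 𝓕.T), Cl2 (𝓕.at t₀ ht₀) (α t) ∧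
      Pull2 (𝓕.at t₀ ht₀) (𝓕.at t ht) id (α t) (H83.HK.kw (fibW W t))) :
    ∀ᶠ t in 𝓝 t₀, H83.HK.Bc M (α t) = H83.HK.Bc M (α t₀) := by
  obtain ⟨A, _, G, -⟩ := hG d E Γ (𝓕.at t₀ ht₀) hd 1 one_pos
  obtain ⟨ε, hε, H⟩ := exact_sub_kw hCo hd 𝓕 ht₀ G hW hα
  filter_upwards [ball_mem_nhds t₀ hε] with t ht
  obtain ⟨htT, hex⟩ := H t ht
  exact Bc_class M (hα t htT).1 (hα t₀ ht₀).1 hex

end Vale.Agent.P281.H834.HK
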