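import Vale.Agent.P281.H834.TS.Dat
import Vale.Agent.P281.H834.HK.Kfd

/-!
# P281, project T-HK (helper834): restriction of the Čech data to the fibres, any dimension
-/

open Set Filter Metric MeasureTheory Vale.Agent.P281.H64
open scoped Topology ContDiff ComplexConjugate ComplexOrder

noncomputable section

namespace Vale.Agent.P281.H834.HK

open Vale.Agent.P281.H64.TK Vale.Agent.P281.H64.TK.TS Vale.Agent.P281.H89.TS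
open Vale.Agent.P281.H834.TS

variable {p d : ℕ} {E Γ : Type} [TopologicalSpace E] [Group Γ] [MulAction Γ E]
  (𝓕 : Fam p d E Γ)
  {W : Fin 𝓕.N → Cm p × Cm d → Matrix (Fin p ⊕ Fin d) (Fin p ⊕ Fin d) ℂ}
  {t₀ : Cm p} (ht₀ : t₀ ∈ 𝓕.T) {A : Type} (G : Good (𝓕.at t₀ ht₀) A)

/-- The coordinate at time `t` in the sheet of `a`, in the sheet `j` at time `t₀`. -/
def fi (t : Cm p) (a : A) (j : Fin 𝓕.N) (u : Cm d) : Cm d :=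
  iv 𝓕 (sh 𝓕 ht₀ G a) t (𝓕.σ j t₀ u)

/-- `u ↦ (t, fi t a j u)`. -/
def ff (t : Cm p) (a : A) (j : Fin 𝓕.N) (u : Cm d) : Cm p × Cm d := (t, fi 𝓕 ht₀ G t a j u)

/-- The 1-forms at time `t`. -/
def bt (β : A → Cm p × Cm d → (Cm p × Cm d) →L[ℝ] ℂ) (t : Cm p) (a : A)
    (j : Fin (𝓕.at t₀ ht₀).N) (z : Cm d) : L1 d := pb (ff 𝓕 ht₀ G t a j) (β a) z

/-- The functions at time `t`. -/
def gt (g : A → A → Cm p × Cm d → ℂ) (t : Cm p) (a b : A) (x : E) : ℂ :=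
  g a b (t, iv 𝓕 (sh 𝓕 ht₀ G a) t x)

variable {𝓕 ht₀ G}
variable {δ δ' ε : ℝ} {β : A → Cm p × Cm d → (Cm p × Cm d) →L[ℝ] ℂ}
  {g : A → A → Cm p × Cm d → ℂ}

/-- The point of `U a` at time `t`. -/
theorem dat_pt (D : Dat 𝓕 ht₀ G W δ δ' ε β g) {a : A} {t : Cm p} (ht : t ∈ ball t₀ ε) {x : E}
    (hx : x ∈ G.U a) : ∃ y ∈ eb (G.c a) (G.r a), 𝓕.σ (sh 𝓕 ht₀ G a) t₀ y = x ∧
      iv 𝓕 (sh 𝓕 ht₀ G a) t x ∈ ball y δ' ∧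
      iv 𝓕 (sh 𝓕 ht₀ G a) t x ∈ eb (G.c a) (2 * G.r a) ∧
      𝓕.σ (sh 𝓕 ht₀ G a) t (iv 𝓕 (sh 𝓕 ht₀ G a) t x) = x := by
  obtain ⟨y, hy, hyx⟩ := hx
  have h := D.near a t ht y hy
  have hyx' : 𝓕.σ (sh 𝓕 ht₀ G a) t₀ y = x := hyx
  rw [hyx'] at h
  exact ⟨y, hy, hyx', h⟩

theorem dat_pt_mem (D : Dat 𝓕 ht₀ G W δ δ' ε β g) {a b : A} {t : Cm p} (ht : t ∈ ball t₀ ε)
    {x : E} (hx : x ∈ G.U a) (hx' : x ∈ G.U b) :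
    iv 𝓕 (sh 𝓕 ht₀ G a) t x ∈ thickening δ (tc 𝓕 ht₀ G a b) := by
  obtain ⟨y, hy, hyx, h1, -⟩ := dat_pt D ht hx
  rw [mem_thickening_iff]
  refine ⟨y, ⟨hy, by rw [hyx]; exact hx'⟩, lt_of_lt_of_le (mem_ball.mp h1) D.le⟩

theorem dat_pt_mem' (D : Dat 𝓕 ht₀ G W δ δ' ε β g) {a b e : A} {t : Cm p}
    (ht : t ∈ ball t₀ ε) {x : E} (hx : x ∈ G.U a) (hx' : x ∈ G.U b) (hx'' : x ∈ G.U e) :
    iv 𝓕 (sh 𝓕 ht₀ G a) t x ∈ thickening δ' (tc 𝓕 ht₀ G a b ∩ tc 𝓕 ht₀ G a e) := by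
  obtain ⟨y, hy, hyx, h1, -⟩ := dat_pt D ht hx
  rw [mem_thickening_iff]
  exact ⟨y, ⟨⟨hy, by rw [hyx]; exact hx'⟩, ⟨hy, by rw [hyx]; exact hx''⟩⟩, mem_ball.mp h1⟩

theorem dat_fi_smooth (D : Dat 𝓕 ht₀ G W δ δ' ε β g) {a : A} {t : Cm p} (ht : t ∈ ball t₀ ε)
    {j : Fin 𝓕.N} {z : Cm d} (hz : z ∈ ball (0 : Cm d) 3) (hx : 𝓕.σ j t₀ z ∈ G.U a) :
    ContDiffAt ℝ ∞ (fi 𝓕 ht₀ G t a j) z ∧
      ∀ᶠ u in 𝓝 z, 𝓕.σ j t₀ u = 𝓕.σ (sh 𝓕 ht₀ G a) t (fi 𝓕 ht₀ G t a j u) := by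
  obtain ⟨y, hy, hyx, h1, h2, h3⟩ := dat_pt D ht hx
  exact iv_smooth 𝓕 ht₀ (D.sub ht) hz (eb2_sub 𝓕 ht₀ G a h2) h3.symm

theorem dat_ff_smooth (D : Dat 𝓕 ht₀ G W δ δ' ε β g) {a : A} {t : Cm p} (ht : t ∈ ball t₀ ε)
    {j : Fin 𝓕.N} {z : Cm d} (hz : z ∈ ball (0 : Cm d) 3) (hx : 𝓕.σ j t₀ z ∈ G.U a) :
    ContDiffAt ℝ ∞ (ff 𝓕 ht₀ G t a j) z :=
  contDiffAt_const.prodMk (dat_fi_smooth D ht hz hx).1

theorem dat_fderiv_ff (D : Dat 𝓕 ht₀ G W δ δ' ε β g) {a : A} {t : Cm p} (ht : t ∈ ball t₀ ε)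
    {j : Fin 𝓕.N} {z : Cm d} (hz : z ∈ ball (0 : Cm d) 3) (hx : 𝓕.σ j t₀ z ∈ G.U a)
    (u : Cm d) : fderiv ℝ (ff 𝓕 ht₀ G t a j) z u = (0, fderiv ℝ (fi 𝓕 ht₀ G t a j) z u) := by
  have h := (hasFDerivAt_const t z).prodMk
    ((dat_fi_smooth D ht hz hx).1.differentiableAt (by simp)).hasFDerivAt
  have h2 : fderiv ℝ (ff 𝓕 ht₀ G t a j) z = _ := h.fderiv
  rw [h2]
  rfl

theorem dat_f1 (D : Dat 𝓕 ht₀ G W δ δ' ε β g) (a : A) {t : Cm p} (ht : t ∈ ball t₀ ε) :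
    F1On (𝓕.at t₀ ht₀) (G.U a) (bt 𝓕 ht₀ G β t a) := by
  refine ⟨?_, ?_⟩
  · intro j z hz hx
    obtain ⟨y, hy, hyx, h1, h2, h3⟩ := dat_pt D (a := a) ht (x := 𝓕.σ j t₀ z) hx
    exact pb_smooth (dat_ff_smooth D ht hz hx) (D.smb a t ht _ h2)
  · intro i j z hz z' hz' hx ψ hψ v
    obtain ⟨hψ1, hψ2, hψ3⟩ := hψ
    have e0 : 𝓕.σ i t₀ z = 𝓕.σ j t₀ z' := by
      have := hψ3.self_of_nhds
      rw [hψ2] at this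
      exact this
    have hx' : 𝓕.σ j t₀ z' ∈ G.U a := by rw [← e0]; exact hx
    have e1 : ff 𝓕 ht₀ G t a i =ᶠ[𝓝 z] fun u => ff 𝓕 ht₀ G t a j (ψ u) := by
      filter_upwards [hψ3] with u hu
      have hu' : 𝓕.σ i t₀ u = 𝓕.σ j t₀ (ψ u) := hu
      simp only [ff, fi, hu']
    have hd : DifferentiableAt ℝ (ff 𝓕 ht₀ G t a j) (ψ z) := by
      rw [hψ2]
      exact (dat_ff_smooth D ht hz' hx').differentiableAt (by simp)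
    have e2 : bt 𝓕 ht₀ G β t a i z = pb ψ (bt 𝓕 ht₀ G β t a j) z := by
      have h1 : pb (ff 𝓕 ht₀ G t a i) (β a) z =
          pb (fun u => ff 𝓕 ht₀ G t a j (ψ u)) (β a) z := pb_congr e1
      have h2 : pb (fun u => ff 𝓕 ht₀ G t a j (ψ u)) (β a) z =
          pb ψ (pb (ff 𝓕 ht₀ G t a j) (β a)) z :=
        pb_comp (hψ1.differentiableAt (by simp)) hd
      exact h1.trans h2
    rw [e2, pb_apply, hψ2]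

theorem dat_d1 (D : Dat 𝓕 ht₀ G W δ δ' ε β g) (a : A) {t : Cm p} (ht : t ∈ ball t₀ ε)
    {α : Fin (𝓕.at t₀ ht₀).N → Cm d → L2 d}
    (hα : Pull2 (𝓕.at t₀ ht₀) (𝓕.at t (D.sub ht)) id α (fun i z => kfd (fibW W t i z))) :
    IsD1 (𝓕.at t₀ ht₀) (G.U a) (bt 𝓕 ht₀ G β t a) α := by
  intro j z hz hx u v
  obtain ⟨y, hy, hyx, h1, h2, h3⟩ := dat_pt D (a := a) ht (x := 𝓕.σ j t₀ z) hx
  have hff := dat_ff_smooth D (a := a) ht hz hx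
  have hβ := D.smb a t ht _ h2
  have e1 := d_pb (β := β a) (f := ff 𝓕 ht₀ G t a j) hff (hβ.differentiableAt (by simp)) u v
  have e2 := D.dd a t ht _ h2 (fderiv ℝ (ff 𝓕 ht₀ G t a j) z u)
    (fderiv ℝ (ff 𝓕 ht₀ G t a j) z v)
  have e3 : KF (W (sh 𝓕 ht₀ G a) (t, fi 𝓕 ht₀ G t a j z)) (fderiv ℝ (ff 𝓕 ht₀ G t a j) z u)
      (fderiv ℝ (ff 𝓕 ht₀ G t a j) z v) = α j z u v := by
    rw [dat_fderiv_ff D ht hz hx, dat_fderiv_ff D ht hz hx, KF_fib_d]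
    obtain ⟨k1, k2⟩ := dat_fi_smooth D (a := a) ht hz hx
    exact (hα j (sh 𝓕 ht₀ G a) z hz (fi 𝓕 ht₀ G t a j z) (eb2_sub 𝓕 ht₀ G a h2)
      (fi 𝓕 ht₀ G t a j) ⟨k1, rfl, k2⟩ u v).symm
  exact e1.trans (e2.trans e3)

theorem dat_sm (D : Dat 𝓕 ht₀ G W δ δ' ε β g) (a b : A) {t : Cm p} (ht : t ∈ ball t₀ ε) :
    SmOn (𝓕.at t₀ ht₀) (G.U a ∩ G.U b) (gt 𝓕 ht₀ G g t a b) := by
  intro j z hz hx
  have h1 := dat_pt_mem D (a := a) (b := b) ht (x := 𝓕.σ j t₀ z) hx.1 hx.2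
  have h2 := D.smg a b t ht _ h1
  exact ContDiffAt.comp (g := g a b) (f := ff 𝓕 ht₀ G t a j) z h2 (dat_ff_smooth D ht hz hx.1)

theorem dat_d0 (D : Dat 𝓕 ht₀ G W δ δ' ε β g) (a b : A) {t : Cm p} (ht : t ∈ ball t₀ ε) :
    IsD0 (𝓕.at t₀ ht₀) (G.U a ∩ G.U b) (gt 𝓕 ht₀ G g t a b)
      (fun i z => bt 𝓕 ht₀ G β t a i z - bt 𝓕 ht₀ G β t b i z) := by
  intro j z hz hx
  have h1 := dat_pt_mem D (a := a) (b := b) ht (x := 𝓕.σ j t₀ z) hx.1 hx.2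
  have hff := (dat_ff_smooth D (a := a) ht hz hx.1).differentiableAt (by simp)
  have hev := D.ev a b t ht _ h1
  have e1 : fderiv ℝ (fun u => g a b (ff 𝓕 ht₀ G t a j u)) z =
      pb (ff 𝓕 ht₀ G t a j) (fun y => β a y - pb (Ta 𝓕 ht₀ G a b) (β b) y) z :=
    fderiv_fun_comp (β := fun y => β a y - pb (Ta 𝓕 ht₀ G a b) (β b) y) hff
      ((D.smg a b t ht _ h1).differentiableAt (by simp)) (D.dg a b t ht _ h1)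
  have e2 : pb (fun u => Ta 𝓕 ht₀ G a b (ff 𝓕 ht₀ G t a j u)) (β b) z =
      pb (ff 𝓕 ht₀ G t a j) (pb (Ta 𝓕 ht₀ G a b) (β b)) z :=
    pb_comp hff ((Ta_smooth 𝓕 ht₀ G hev).differentiableAt (by simp))
  have e3 : pb (fun u => Ta 𝓕 ht₀ G a b (ff 𝓕 ht₀ G t a j u)) (β b) z =
      pb (ff 𝓕 ht₀ G t b j) (β b) z := by
    refine pb_congr ?_
    filter_upwards [(dat_fi_smooth D (a := a) ht hz hx.1).2] with u hu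
    simp only [Ta, ta, tr, ff]
    rw [← hu]
    rfl
  have e4 : fderiv ℝ (fun u => gt 𝓕 ht₀ G g t a b (𝓕.σ j t₀ u)) z =
      fderiv ℝ (fun u => g a b (ff 𝓕 ht₀ G t a j u)) z := rfl
  refine e4.trans ?_
  rw [e1, pb_sub, ← e2, e3]
  rfl

/-- The cocycle does not depend on the time. -/
theorem dat_co (D : Dat 𝓕 ht₀ G W δ δ' ε β g) (a b e : A) {t t' : Cm p} (ht : t ∈ ball t₀ ε)
    (ht' : t' ∈ ball t₀ ε) {x : E} (hx : x ∈ G.U a ∩ G.U b ∩ G.U e) :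
    gt 𝓕 ht₀ G g t b e x - gt 𝓕 ht₀ G g t a e x + gt 𝓕 ht₀ G g t a b x =
      gt 𝓕 ht₀ G g t' b e x - gt 𝓕 ht₀ G g t' a e x + gt 𝓕 ht₀ G g t' a b x := by
  have key : ∀ s ∈ ball t₀ ε, Ph 𝓕 ht₀ G g a b e (s, iv 𝓕 (sh 𝓕 ht₀ G a) s x) =
      gt 𝓕 ht₀ G g s b e x - gt 𝓕 ht₀ G g s a e x + gt 𝓕 ht₀ G g s a b x := by
    intro s hs
    obtain ⟨y, hy, hyx, h1, h2, h3⟩ := dat_pt D (a := a) hs hx.1.1
    have e1 : Ta 𝓕 ht₀ G a b (s, iv 𝓕 (sh 𝓕 ht₀ G a) s x) =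
        (s, iv 𝓕 (sh 𝓕 ht₀ G b) s x) := by
      simp only [Ta, ta, tr]
      rw [h3]
    simp only [Ph, e1]
    rfl
  rw [← key t ht, ← key t' ht']
  exact D.const a b e ht ht' (dat_pt_mem' D ht hx.1.1 hx.1.2 hx.2)
    (dat_pt_mem' D ht' hx.1.1 hx.1.2 hx.2)

end Vale.Agent.P281.H834.HK
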