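import Vale.Agent.P281.H834.HK.Fib
import Vale.Agent.P281.H834.TS.Ex
import Vale.Agent.P281.H64.TS.Spec

/-!
# P281, project T-HK, block B2 (helper834): the class of the Kähler metric is locally constant, in
every dimension
-/

open Set Filter Metric MeasureTheory Vale.Agent.P281.H64
open scoped Topology ContDiff ComplexConjugate ComplexOrder

noncomputable section

namespace Vale.Agent.P281.H834.HK

open Vale.Agent.P281.H64.TK Vale.Agent.P281.H64.TK.TS Vale.Agent.P281.H834.TS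

/-- The forms at two nearby times differ by an exact form. -/
theorem exact_sub_d (hCo : CoCobStmt) {p d : ℕ} (hd : 0 < d) {E Γ : Type} [TopologicalSpace E]
    [T2Space E] [Group Γ] [Subsingleton Γ] [MulAction Γ E] [ContinuousConstSMul Γ E]
    (𝓕 : Fam p d E Γ)
    {W : Fin 𝓕.N → Cm p × Cm d → Matrix (Fin p ⊕ Fin d) (Fin p ⊕ Fin d) ℂ} {t₀ : Cm p}
    (ht₀ : t₀ ∈ 𝓕.T) {A : Type} [Fintype A] (G : Good (𝓕.at t₀ ht₀) A) (hW : KFam 𝓕 W)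
    {α : Cm p → Fin (𝓕.at t₀ ht₀).N → Cm d → L2 d}
    (hα : ∀ t (ht : t ∈ 𝓕.T), Cl2 (𝓕.at t₀ ht₀) (α t) ∧
      Pull2 (𝓕.at t₀ ht₀) (𝓕.at t ht) id (α t) (fun i z => kfd (fibW W t i z))) :
    ∃ ε > 0, ∀ t ∈ ball t₀ ε, t ∈ 𝓕.T ∧
      Exact (𝓕.at t₀ ht₀) (fun i z => α t i z - α t₀ i z) := by
  obtain ⟨δ, δ', ε, β, g, D⟩ := exists_dat 𝓕 ht₀ G hW
  refine ⟨ε, D.pos, fun t ht => ⟨D.sub ht, ?_⟩⟩
  have ht0 : t₀ ∈ ball t₀ ε := mem_ball_self D.pos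
  have hcl : Cl2 (𝓕.at t₀ ht₀) (fun i z => α t i z - α t₀ i z) :=
    cl2_sub (hα t (D.sub ht)).1 (hα t₀ (D.sub ht0)).1
  have hIs : IsCo (𝓕.at t₀ ht₀) G.U (fun i z => α t i z - α t₀ i z)
      (fun a i z => bt 𝓕 ht₀ G β t a i z - bt 𝓕 ht₀ G β t₀ a i z)
      (fun a b e => gt 𝓕 ht₀ G g t a b e - gt 𝓕 ht₀ G g t₀ a b e) (fun _ _ _ => 0) := by
    refine ⟨fun a => f1_sub (dat_f1 D a ht) (dat_f1 D a ht0),
      fun a => d1_sub (dat_f1 D a ht) (dat_f1 D a ht0)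
        (dat_d1 D a ht (hα t (D.sub ht)).2) (dat_d1 D a ht0 (hα t₀ (D.sub ht0)).2),
      fun a b => sm_sub (dat_sm D a b ht) (dat_sm D a b ht0), fun a b => ?_,
      fun a b e x hx => ?_, fun _ _ _ _ => rfl⟩
    · have h1 := d0_sub (dat_sm D a b ht) (dat_sm D a b ht0) (dat_d0 D a b ht) (dat_d0 D a b ht0)
      intro i z hz hx
      rw [h1 i z hz hx]
      exact sub_sub_sub_comm _ _ _ _
    · have h1 := dat_co D a b e ht ht0 hx
      linear_combination h1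
  refine (hCo d E Γ (𝓕.at t₀ ht₀) A G _ _ _ _ hd hcl hIs).2.mpr ?_
  exact ⟨fun _ _ => 0, fun _ _ _ _ => by simp⟩

/-- **The class of the Kähler metric is locally constant.** -/
theorem kConst_d (hG : GoodStmt) (hCo : CoCobStmt) {p d : ℕ} (hd : 0 < d) {E Γ : Type}
    [TopologicalSpace E] [T2Space E] [Group Γ] [Subsingleton Γ] [MulAction Γ E]
    [ContinuousConstSMul Γ E] (𝓕 : Fam p d E Γ)
    (W : Fin 𝓕.N → Cm p × Cm d → Matrix (Fin p ⊕ Fin d) (Fin p ⊕ Fin d) ℂ) (t₀ : Cm p)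
    (ht₀ : t₀ ∈ 𝓕.T) (n : ℕ) (M : Mark2 (𝓕.at t₀ ht₀) n)
    (α : Cm p → Fin (𝓕.at t₀ ht₀).N → Cm d → L2 d) (hW : KFam 𝓕 W)
    (hα : ∀ t (ht : t ∈ 𝓕.T), Cl2 (𝓕.at t₀ ht₀) (α t) ∧
      Pull2 (𝓕.at t₀ ht₀) (𝓕.at t ht) id (α t) (fun i z => kfd (fibW W t i z))) :
    ∀ᶠ t in 𝓝 t₀, M.cl (α t) = M.cl (α t₀) := by
  obtain ⟨A, _, G, -⟩ := hG d E Γ (𝓕.at t₀ ht₀) hd 1 one_pos
  obtain ⟨ε, hε, H⟩ := exact_sub_d hCo hd 𝓕 ht₀ G hW hα
  filter_upwards [ball_mem_nhds t₀ hε] with t ht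
  obtain ⟨htT, hex⟩ := H t ht
  have h1 := M.ex (α t) (hα t htT).1
  have h2 := M.ex (α t₀) (hα t₀ ht₀).1
  have h3 := ex_sub hex (ex_sub h1 h2)
  have h5 : (fun i z => ∑ k, (M.cl (α t) k - M.cl (α t₀) k) • M.b k i z) =
      fun i z => (α t i z - α t₀ i z) - ((α t i z - ∑ k, M.cl (α t) k • M.b k i z) -
        (α t₀ i z - ∑ k, M.cl (α t₀) k • M.b k i z)) := by
    funext i z
    refine ContinuousLinearMap.ext fun u => ContinuousLinearMap.ext fun v => ?_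
    simp only [sum_apply, sub_apply, smul_apply, smul_eq_mul, sub_mul, Finset.sum_sub_distrib]
    ring
  have h4 := M.indep (fun k => M.cl (α t) k - M.cl (α t₀) k) (by rw [h5]; exact h3)
  funext k
  exact sub_eq_zero.mp (congrFun h4 k)

end Vale.Agent.P281.H834.HK
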