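import Vale.Agent.P281.H834.HK.KConst
import Vale.Agent.P281.H83.HK.Defs
import Vale.Agent.P281.H864.HK.W

/-!
# P281, project T-HK, block B2 (helper834): the statements of `KConst.lean`, `Kfd.lean` for the
Kähler form `kf`, `kw` of `H83/HK/Defs.lean`, and the two densities `W`
-/

open Set Filter Metric MeasureTheory Vale.Agent.P281.H64
open scoped Topology ContDiff ComplexConjugate ComplexOrder

noncomputable section

namespace Vale.Agent.P281.H834.HK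

open Vale.Agent.P281.H64.TK Vale.Agent.P281.H64.TK.TS Vale.Agent.P281.H834.TS

theorem kf_eq {d : ℕ} (w : Matrix (Fin d) (Fin d) ℂ) : H83.HK.kf w = kfd w := by
  refine ContinuousLinearMap.ext fun u => ContinuousLinearMap.ext fun v => ?_
  rw [kfd_apply]
  rfl

theorem kf_apply {d : ℕ} (w : Matrix (Fin d) (Fin d) ℂ) (u v : Cm d) :
    H83.HK.kf w u v = Complex.I / 2 * ∑ j, ∑ k, w j k * (u j * conj (v k) - v j * conj (u k)) :=
  rfl

theorem kw_eq {d N : ℕ} (w : Fin N → Cm d → Matrix (Fin d) (Fin d) ℂ) :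
    H83.HK.kw w = fun i z => kfd (w i z) := by
  funext i z
  exact kf_eq _

/-- The Kähler form of a Kähler metric is a closed 2-form. -/
theorem kw_cl2 {d : ℕ} {E Γ : Type} [TopologicalSpace E] [Group Γ] [MulAction Γ E]
    {S : Sheets d E Γ} {w : Fin S.N → Cm d → Matrix (Fin d) (Fin d) ℂ} (hw : Kah S w) :
    Cl2 S (H83.HK.kw w) := by
  rw [kw_eq]
  exact kah_cl2 hw

/-- The Kähler form is real. -/
theorem kw_real2 {d : ℕ} {E Γ : Type} [TopologicalSpace E] [Group Γ] [MulAction Γ E]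
    {S : Sheets d E Γ} {w : Fin S.N → Cm d → Matrix (Fin d) (Fin d) ℂ} (hw : Kah S w) :
    Real2 S (H83.HK.kw w) := by
  rw [kw_eq]
  exact kah_real2 hw

theorem rb_eq {d : ℕ} (q : Fin d × Fin 2) : H83.HK.rb q = H864.HK.rbp d q := by
  obtain ⟨k, l⟩ := q
  rw [H864.HK.rbp_apply]
  fin_cases l <;> simp [H83.HK.rb]

/-- The two top products agree. -/
theorem W_eq {d : ℕ} (a : Fin d → L2 d) : H83.HK.W a = H864.HK.W a := by
  rw [H83.HK.W, H864.HK.W, H864.HK.Wv, Fintype.card_fin, one_div, inv_pow]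
  simp only [H864.HK.pr, rb_eq]

/-- **The forms at two nearby times differ by an exact form** (letters of `H83/HK/Defs.lean`). -/
theorem exact_sub_kw (hCo : CoCobStmt) {p d : ℕ} (hd : 0 < d) {E Γ : Type} [TopologicalSpace E]
    [T2Space E] [Group Γ] [Subsingleton Γ] [MulAction Γ E] [ContinuousConstSMul Γ E]
    (𝓕 : Fam p d E Γ)
    {W : Fin 𝓕.N → Cm p × Cm d → Matrix (Fin p ⊕ Fin d) (Fin p ⊕ Fin d) ℂ} {t₀ : Cm p}
    (ht₀ : t₀ ∈ 𝓕.T) {A : Type} [Fintype A] (G : Good (𝓕.at t₀ ht₀) A) (hW : KFam 𝓕 W)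
    {α : Cm p → Fin (𝓕.at t₀ ht₀).N → Cm d → L2 d}
    (hα : ∀ t (ht : t ∈ 𝓕.T), Cl2 (𝓕.at t₀ ht₀) (α t) ∧
      Pull2 (𝓕.at t₀ ht₀) (𝓕.at t ht) id (α t) (H83.HK.kw (fibW W t))) :
    ∃ ε > 0, ∀ t ∈ ball t₀ ε, t ∈ 𝓕.T ∧
      Exact (𝓕.at t₀ ht₀) (fun i z => α t i z - α t₀ i z) := by
  refine exact_sub_d hCo hd 𝓕 ht₀ G hW fun t ht => ⟨(hα t ht).1, ?_⟩
  intro i j z hz z' hz' ψ hψ u v
  exact ((hα t ht).2 i j z hz z' hz' ψ hψ u v).trans
    (congrArg (fun L : L2 d => L (fderiv ℝ ψ z u) (fderiv ℝ ψ z v)) (kf_eq (fibW W t j z')))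

/-- **The class of the Kähler metric is locally constant** (letters of `H83/HK/Defs.lean`). -/
theorem kConst_kw (hG : GoodStmt) (hCo : CoCobStmt) {p d : ℕ} (hd : 0 < d) {E Γ : Type}
    [TopologicalSpace E] [T2Space E] [Group Γ] [Subsingleton Γ] [MulAction Γ E]
    [ContinuousConstSMul Γ E] (𝓕 : Fam p d E Γ)
    (W : Fin 𝓕.N → Cm p × Cm d → Matrix (Fin p ⊕ Fin d) (Fin p ⊕ Fin d) ℂ) (t₀ : Cm p)
    (ht₀ : t₀ ∈ 𝓕.T) (n : ℕ) (M : Mark2 (𝓕.at t₀ ht₀) n)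
    (α : Cm p → Fin (𝓕.at t₀ ht₀).N → Cm d → L2 d) (hW : KFam 𝓕 W)
    (hα : ∀ t (ht : t ∈ 𝓕.T), Cl2 (𝓕.at t₀ ht₀) (α t) ∧
      Pull2 (𝓕.at t₀ ht₀) (𝓕.at t ht) id (α t) (H83.HK.kw (fibW W t))) :
    ∀ᶠ t in 𝓝 t₀, M.cl (α t) = M.cl (α t₀) := by
  refine kConst_d hG hCo hd 𝓕 W t₀ ht₀ n M α hW fun t ht => ⟨(hα t ht).1, ?_⟩
  intro i j z hz z' hz' ψ hψ u v
  exact ((hα t ht).2 i j z hz z' hz' ψ hψ u v).trans
    (congrArg (fun L : L2 d => L (fderiv ℝ ψ z u) (fderiv ℝ ψ z v)) (kf_eq (fibW W t j z')))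

end Vale.Agent.P281.H834.HK
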