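import Vale.Agent.P281.H834.HK.Lat2

/-!
# P281, project T-HK (helper834): `H⁰(Ω²) ⊕ ℝ w` is a maximal positive subspace
-/

open Set Filter Metric MeasureTheory
open scoped Topology ContDiff ComplexConjugate ComplexOrder

noncomputable section

namespace Vale.Agent.P281.H834.HK

open Vale.Agent.P281.H64.TK Vale.Agent.P281.H64.TK.TS
open Vale.Agent.P281.H64 (Cm)
open Vale.Agent.P281.H713 (bil)
open Vale.Agent.P281.H83.HK (bW W3 kw ts cjs cj tf Bc kc Hol2 Gen2 FormsStmt PosStmt HIStmt)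
open Vale.Agent.P281.H747.TS (l2_ext sum_ap exact_congr exact_zero exact_smul exact_add_smul
  cl2_congr cl2_zero cl2_add_smul cl2_smul cl2_add cl2_sub cl2_sum cl_unique cl_congr cl_add_smul
  cl_of_exact exact_of_cl cl_zero cl_add cl_lin cl_im cl_conj bil_re bil_right dot_symm PhiP
  PhiP_apply)

variable {d : ℕ} {E Γ : Type} [TopologicalSpace E] [Group Γ] [Subsingleton Γ]
  [MulAction Γ E] [ContinuousConstSMul Γ E] {S : Sheets d E Γ}
  {w : Fin S.N → Cm d → Matrix (Fin d) (Fin d) ℂ}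

/-- The square of the class of `sk s w c`. -/
theorem sk_form (I : Inp S w) {n : ℕ} (M : Mark2 S n)
    {s : Fin S.N → Cm d → Matrix (Fin d) (Fin d) ℂ} (hs : Hol2 S s)
    (c : ℝ) (x : Ls I M) (hx : (x : Fin n → ℂ) = M.cl (ts s)) :
    PhiP (Ls I M) (kc M w) (x, c) ⬝ᵥ (Bc M (kw w)).mulVec (PhiP (Ls I M) (kc M w) (x, c)) =
      (bW S (sk s w c) (sk s w c) (kw w)).re := by
  rw [bW_cl I.hd M (cl2_sk I hs c) (cl2_sk I hs c) (kw_cl2 I.kah) (kw_real2 I.kah)]
  have h1 : M.cl (sk s w c) = fun k => ((PhiP (Ls I M) (kc M w) (x, c) k : ℝ) : ℂ) := by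
    funext k
    rw [cl_sk I M hs c k, PhiP_apply, hx]
  rw [h1, bil_re, Complex.ofReal_re]

theorem sk_pos (I : Inp S w) (hE : Nonempty E) {s : Fin S.N → Cm d → Matrix (Fin d) (Fin d) ℂ}
    (hs : Hol2 S s) (c : ℝ) (hne : (∃ i, ∃ z ∈ ball (0 : Cm d) 3, s i z ≠ 0) ∨ c ≠ 0) :
    0 < (bW S (sk s w c) (sk s w c) (kw w)).re := by
  rw [bW_sk I hE hs c]
  obtain ⟨h1, h2⟩ := I.pos hE
  obtain ⟨-, -, h3⟩ := h2 s s hs hs
  have e1 : (2 * bW S (ts s) (cjs (ts s)) (kw w) + (c : ℂ) ^ 2 * bW S (kw w) (kw w) (kw w)).re =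
      2 * (bW S (ts s) (cjs (ts s)) (kw w)).re + c ^ 2 * (bW S (kw w) (kw w) (kw w)).re := by
    have e2 : ((c : ℂ) ^ 2) = ((c ^ 2 : ℝ) : ℂ) := by push_cast; rfl
    rw [e2, Complex.add_re, Complex.re_ofReal_mul]
    congr 1
    simp
  rw [e1]
  by_cases hs0 : ∃ i, ∃ z ∈ ball (0 : Cm d) 3, s i z ≠ 0
  · have h4 := h3 hs0
    have h5 : 0 ≤ c ^ 2 * (bW S (kw w) (kw w) (kw w)).re := by positivity
    linarith
  · have hc : c ≠ 0 := hne.resolve_left hs0
    have h4 : bW S (ts s) (cjs (ts s)) (kw w) = 0 := by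
      push Not at hs0
      have e3 : bW S (ts s) (cjs (ts s)) (kw w) = bW S (fun _ _ => 0) (cjs (ts s)) (kw w) :=
        bW_congr (fun i z hz => by
          show tf (s i z) = 0
          rw [hs0 i z hz, tf_zero]) (fun _ _ _ => rfl) fun _ _ _ => rfl
      have hd : 0 < d := by have := I.hd; omega
      rw [e3, bW_zero hd (I.cj _ (I.cl s hs)) (kw_cl2 I.kah)]
    rw [h4]
    have h5 : 0 < c ^ 2 * (bW S (kw w) (kw w) (kw w)).re := by positivity
    simpa using h5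

theorem phi_pos (I : Inp S w) {n : ℕ} (M : Mark2 S n) (hE : Nonempty E) (p : Ls I M × ℝ)
    (hp : p ≠ 0) : 0 < PhiP (Ls I M) (kc M w) p ⬝ᵥ
      (Bc M (kw w)).mulVec (PhiP (Ls I M) (kc M w) p) := by
  obtain ⟨⟨x, s, hs, hx⟩, c⟩ := p
  rw [sk_form I M hs c ⟨x, s, hs, hx⟩ hx.symm]
  refine sk_pos I hE hs c ?_
  by_contra hcon
  push Not at hcon
  apply hp
  have h1 : x = 0 := by
    rw [← hx]; exact cl_ts_zero M hcon.1
  exact Prod.ext (Subtype.ext h1) hcon.2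

theorem phi_inj (I : Inp S w) {n : ℕ} (M : Mark2 S n) (hE : Nonempty E) :
    Function.Injective (PhiP (Ls I M) (kc M w)) := by
  rw [← LinearMap.ker_eq_bot, LinearMap.ker_eq_bot']
  intro p hp
  by_contra h
  have := phi_pos I M hE p h
  rw [hp] at this
  simp at this

theorem finrank_range (I : Inp S w) {n : ℕ} (M : Mark2 S n) (hE : Nonempty E) :
    Module.finrank ℝ (LinearMap.range (PhiP (Ls I M) (kc M w))) =
      2 * Module.finrank ℂ (Ls I M) + 1 := by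
  rw [LinearMap.finrank_range_of_inj (phi_inj I M hE), Module.finrank_prod,
    Module.finrank_self, ← Module.finrank_mul_finrank ℝ ℂ (Ls I M), Complex.finrank_real_complex]

/-- A class orthogonal to the image of `PhiP` has a negative square. -/
theorem phi_neg (I : Inp S w) {n : ℕ} (M : Mark2 S n) (x : Fin n → ℝ) (hx : x ≠ 0)
    (h : ∀ y ∈ LinearMap.range (PhiP (Ls I M) (kc M w)), y ⬝ᵥ (Bc M (kw w)).mulVec x = 0) :
    x ⬝ᵥ (Bc M (kw w)).mulVec x < 0 := by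
  have hd : 1 < d := I.hd
  have hsy := Bc_symm hd M (kw w)
  have kk := kw_cl2 I.kah
  have kr := kw_real2 I.kah
  have hcl := cl2_sum Finset.univ (fun k => (x k : ℂ)) fun k _ => M.closed k
  have hre : Real2 S (fun i z => ∑ k, (x k : ℂ) • M.b k i z) := by
    intro i z hz u v
    rw [sum_ap, Complex.im_sum]
    refine Finset.sum_eq_zero fun k _ => ?_
    show ((x k : ℂ) * M.b k i z u v).im = 0
    rw [Complex.im_ofReal_mul, M.real k i z hz u v, mul_zero]
  have hcx : M.cl (fun i z => ∑ k, (x k : ℂ) • M.b k i z) = fun k => (x k : ℂ) := cl_lin M _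
  have h1 : bW S (fun i z => ∑ k, (x k : ℂ) • M.b k i z) (kw w) (kw w) = 0 := by
    rw [bW_cl hd M hcl kk kk kr, hcx, bil_right]
    have h2 : (fun k => (M.cl (kw w) k).im) = 0 := by
      funext k; exact cl_im M kk kr k
    have h3 := h (PhiP (Ls I M) (kc M w) (0, 1)) ⟨_, rfl⟩
    have h4 : PhiP (Ls I M) (kc M w) (0, 1) = fun k => (M.cl (kw w) k).re := by
      funext k
      rw [PhiP_apply]
      simp [kc]
    rw [h4, dot_symm hsy] at h3
    rw [h2, h3]
    simp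
  have h2 : ∀ s, Hol2 S s →
      bW S (fun i z => ∑ k, (x k : ℂ) • M.b k i z) (ts s) (kw w) = 0 := by
    intro s hs
    rw [bW_cl hd M hcl (I.cl s hs) kk kr, hcx, bil_right]
    set p := M.cl (ts s) with hp
    have hpL : p ∈ Ls I M := ⟨s, hs, rfl⟩
    have h3 := h (PhiP (Ls I M) (kc M w) (⟨p, hpL⟩, 0)) ⟨_, rfl⟩
    have h4 := h (PhiP (Ls I M) (kc M w) (⟨Complex.I • p, (Ls I M).smul_mem _ hpL⟩, 0)) ⟨_, rfl⟩
    have h5 : PhiP (Ls I M) (kc M w) (⟨p, hpL⟩, 0) = (2 : ℝ) • fun k => (p k).re := by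
      funext k
      rw [PhiP_apply]
      simp
    have h6 : PhiP (Ls I M) (kc M w) (⟨Complex.I • p, (Ls I M).smul_mem _ hpL⟩, 0) =
        (-2 : ℝ) • fun k => (p k).im := by
      funext k
      rw [PhiP_apply]
      simp
    rw [h5, smul_dotProduct, dot_symm hsy] at h3
    rw [h6, smul_dotProduct, dot_symm hsy] at h4
    have h7 : x ⬝ᵥ (Bc M (kw w)).mulVec (fun k => (p k).re) = 0 := by
      rw [smul_eq_mul] at h3; linarith
    have h8 : x ⬝ᵥ (Bc M (kw w)).mulVec (fun k => (p k).im) = 0 := by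
      rw [smul_eq_mul] at h4; linarith
    rw [h7, h8]
    simp
  obtain ⟨h3, h4⟩ := I.hi _ hcl hre h1 h2
  have h5 := bW_cl hd M hcl hcl kk kr
  rw [hcx, bil_re] at h5
  have h6 : (bW S (fun i z => ∑ k, (x k : ℂ) • M.b k i z)
      (fun i z => ∑ k, (x k : ℂ) • M.b k i z) (kw w)).re = x ⬝ᵥ (Bc M (kw w)).mulVec x := by
    rw [h5, Complex.ofReal_re]
  rw [h6] at h3 h4
  refine lt_of_le_of_ne h3 fun h7 => hx ?_
  have h8 := M.indep (fun k => (x k : ℂ)) (h4 h7)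
  funext k
  have := congrFun h8 k
  simpa using this

/-- The class of a nonzero closed holomorphic 2-form is not zero. -/
theorem ts_inj (I : Inp S w) {n : ℕ} (M : Mark2 S n)
    {s : Fin S.N → Cm d → Matrix (Fin d) (Fin d) ℂ} (hs : Hol2 S s)
    (h : M.cl (ts s) = 0) : ∀ i, ∀ z ∈ ball (0 : Cm d) 3, s i z = 0 := by
  by_contra hcon
  push Not at hcon
  obtain ⟨i, z, hz, hne⟩ := hcon
  have hE : Nonempty E := ⟨S.σ i z⟩
  have h1 := sk_pos I hE hs 0 (Or.inl ⟨i, z, hz, hne⟩)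
  rw [← sk_form I M hs 0 ⟨_, s, hs, rfl⟩ rfl] at h1
  have h2 : PhiP (Ls I M) (kc M w) (⟨M.cl (ts s), s, hs, rfl⟩, 0) = 0 := by
    funext k
    rw [PhiP_apply]
    simp [h]
  rw [h2] at h1
  simp at h1

theorem gen2_iff (I : Inp S w) {n : ℕ} (M : Mark2 S n) :
    (∃ s, Gen2 S s) ↔ Module.finrank ℂ (Ls I M) = 1 := by
  rw [finrank_eq_one_iff']
  constructor
  · rintro ⟨s, hs, ⟨i, z, hz, hne⟩, hu⟩
    refine ⟨⟨M.cl (ts s), s, hs, rfl⟩, ?_, ?_⟩
    · intro h0
      exact hne (ts_inj I M hs (congrArg Subtype.val h0) i z hz)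
    · rintro ⟨_, s', hs', rfl⟩
      obtain ⟨c, hc⟩ := hu s' hs'
      refine ⟨c, Subtype.ext ?_⟩
      show c • M.cl (ts s) = M.cl (ts s')
      have h1 := cl_ts_add_smul I M (hol2_zero (S := S)) hs c
      rw [cl_ts_zero M (s := fun _ _ => 0) fun _ _ _ => rfl, zero_add] at h1
      rw [← h1]
      exact cl_congr M (I.cl _ (hol2_add_smul hol2_zero hs c)) fun i z hz => by
        show tf (0 + c • s i z) = tf (s' i z)
        rw [hc i z hz, zero_add]
  · rintro ⟨⟨_, s, hs, rfl⟩, hne, hu⟩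
    refine ⟨s, hs, ?_, fun s' hs' => ?_⟩
    · by_contra hcon
      push Not at hcon
      exact hne (Subtype.ext (cl_ts_zero M hcon))
    · obtain ⟨c, hc⟩ := hu ⟨_, s', hs', rfl⟩
      refine ⟨c, fun i z hz => ?_⟩
      have h1 : c • M.cl (ts s) = M.cl (ts s') := congrArg Subtype.val hc
      have h2 := cl_ts_add_smul I M hs' hs (-c)
      rw [← h1, neg_smul, add_neg_cancel] at h2
      have h3 := ts_inj I M (hol2_add_smul hs' hs (-c)) h2 i z hz
      rw [neg_smul, ← sub_eq_add_neg, sub_eq_zero] at h3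
      exact h3

end Vale.Agent.P281.H834.HK
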